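import Crest.Agent.R294.Main
import Crest.Prelude.Def_TwoWay

/-!
The behaviour of a two-way automaton on a block of cells, as a relation between closed sets of
ports.
-/

set_option autoImplicit false
universe u

namespace Crest.Agent.R294
open Crest.TwoWay

theorem prod_iff {X : Type u} (l : List (Rl X)) (x y : X) :
    l.prod x y ↔ ∃ B : ℕ → X, B 0 = x ∧ B l.length = y ∧
      ∀ (i : ℕ) (r : Rl X), l[i]? = some r → r (B i) (B (i + 1)) := by
  induction l generalizing x with
  | nil =>
    simp only [List.prod_nil, List.length_nil, Rl.one_apply]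
    constructor
    · intro h; exact ⟨fun _ => x, rfl, h, by simp⟩
    · rintro ⟨B, h1, h2, -⟩; rw [← h1, h2]
  | cons a l ih =>
    rw [List.prod_cons, Rl.mul_apply]
    constructor
    · rintro ⟨b, h1, h2⟩
      obtain ⟨B, g1, g2, g3⟩ := (ih b).mp h2
      refine ⟨fun i => Nat.casesOn i x B, rfl, g2, ?_⟩
      intro i r hr
      cases i with
      | zero =>
        simp only [List.getElem?_cons_zero, Option.some.injEq] at hr
        subst hr
        show a x (B 0)
        rwa [g1]
      | succ i => exact g3 i r (by simpa using hr)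
    · rintro ⟨B, g1, g2, g3⟩
      refine ⟨B 1, ?_, (ih _).mpr ⟨fun i => B (i + 1), rfl, g2, fun i r hr => ?_⟩⟩
      · rw [← g1]; exact g3 0 a (by simp)
      · exact g3 (i + 1) r (by simpa using hr)

variable {α : Type} {σ : Type u} (M : TwoWayNFA α σ)

/-- Ports: an acceptance flag, and crossings to the right (`true`) or left (`false`). -/
abbrev Port (σ : Type u) := Option (Bool × σ)

/-- Behaviour of one cell. -/
def cellRel (a : Cell α) : Rl (Set (Port σ)) := fun B C =>
  (none ∈ B ↔ none ∈ C) ∧ ∃ Z : Set σ, (∀ q, some (true, q) ∈ B → q ∈ Z) ∧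
    (∀ q, some (false, q) ∈ C → q ∈ Z) ∧ (∀ q ∈ Z, q ∈ M.accept → none ∈ B) ∧
    ∀ q ∈ Z, q ∉ M.accept → ∀ q',
      ((q', HeadMove.moveLeft) ∈ M.step q a → some (false, q') ∈ B) ∧
      ((q', HeadMove.stay) ∈ M.step q a → q' ∈ Z) ∧
      ((q', HeadMove.moveRight) ∈ M.step q a → some (true, q') ∈ C)

theorem lat_cellRel (a : Cell α) : Lat (cellRel M a) := by
  constructor
  · intro ι B C h
    choose h0 Z h1 h2 h3 h4 using h
    refine ⟨by simp only [Set.mem_iUnion, h0], ⋃ i, Z i, ?_, ?_, ?_, ?_⟩
    · simp only [Set.mem_iUnion]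
      rintro q ⟨i, hi⟩; exact ⟨i, h1 i q hi⟩
    · simp only [Set.mem_iUnion]
      rintro q ⟨i, hi⟩; exact ⟨i, h2 i q hi⟩
    · simp only [Set.mem_iUnion]
      rintro q ⟨i, hi⟩ hq; exact ⟨i, h3 i q hi hq⟩
    · simp only [Set.mem_iUnion]
      rintro q ⟨i, hi⟩ hq q'
      exact ⟨fun hh => ⟨i, (h4 i q hi hq q').1 hh⟩, fun hh => ⟨i, (h4 i q hi hq q').2.1 hh⟩,
        fun hh => ⟨i, (h4 i q hi hq q').2.2 hh⟩⟩
  · intro ι B C h
    choose h0 Z h1 h2 h3 h4 using h
    refine ⟨by simp only [Set.mem_iInter, h0], ⋂ i, Z i, ?_, ?_, ?_, ?_⟩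
    · simp only [Set.mem_iInter]
      intro q hi i; exact h1 i q (hi i)
    · simp only [Set.mem_iInter]
      intro q hi i; exact h2 i q (hi i)
    · simp only [Set.mem_iInter]
      intro q hi hq i; exact h3 i q (hi i) hq
    · simp only [Set.mem_iInter]
      intro q hi hq q'
      exact ⟨fun hh i => (h4 i q (hi i) hq q').1 hh, fun hh i => (h4 i q (hi i) hq q').2.1 hh,
        fun hh i => (h4 i q (hi i) hq q').2.2 hh⟩

/-- Behaviour of a block of cells. -/
def beh (l : List (Cell α)) : Rl (Set (Port σ)) := (l.map (cellRel M)).prod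

theorem beh_append (l l' : List (Cell α)) : beh M (l ++ l') = beh M l * beh M l' := by
  simp [beh]

theorem lat_one {P : Type u} : Lat (1 : Rl (Set P)) := by
  constructor
  · intro ι B C h
    have : B = C := funext h
    rw [this]; rfl
  · intro ι B C h
    have : B = C := funext h
    rw [this]; rfl

theorem lat_beh (l : List (Cell α)) : Lat (beh M l) := by
  induction l with
  | nil => exact lat_one
  | cons a l ih =>
    have : beh M (a :: l) = cellRel M a * beh M l := by simp [beh]
    rw [this]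
    exact (lat_cellRel M a).mul ih

/-- Head position after a move. -/
def mv (i : ℕ) : HeadMove → ℕ
  | .moveLeft => i - 1
  | .stay => i
  | .moveRight => i + 1

/-- One step inside a block (cells at positions `1, …, n`), halting at accepting states. -/
def Nx (l : List (Cell α)) (x y : Option (σ × ℕ)) : Prop :=
  ∃ q i a, x = some (q, i + 1) ∧ l[i]? = some a ∧
    ((q ∈ M.accept ∧ y = none) ∨
      (q ∉ M.accept ∧ ∃ q' m, (q', m) ∈ M.step q a ∧ y = some (q', mv (i + 1) m)))

theorem beh_iff {l : List (Cell α)} (hl : l ≠ []) (B C : Set (Port σ)) :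
    beh M l B C ↔ (none ∈ B ↔ none ∈ C) ∧ ∃ O : Set (Option (σ × ℕ)),
      (∀ x ∈ O, ∀ y, Nx M l x y → y ∈ O) ∧ (∀ q, some (true, q) ∈ B → some (q, 1) ∈ O) ∧
      (∀ q, some (false, q) ∈ C → some (q, l.length) ∈ O) ∧
      (∀ q, some (q, 0) ∈ O → some (false, q) ∈ B) ∧
      (∀ q, some (q, l.length + 1) ∈ O → some (true, q) ∈ C) ∧ (none ∈ O → none ∈ B) := by
  have hn : 0 < l.length := List.length_pos_iff.mpr hl
  unfold beh
  rw [prod_iff, List.length_map]
  constructor
  · rintro ⟨K, rfl, rfl, hK⟩
    have hK' : ∀ (i : ℕ) a, l[i]? = some a → cellRel M a (K i) (K (i + 1)) := fun i a ha =>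
      hK i _ (by rw [List.getElem?_map, ha]; rfl)
    have hK'' : ∀ i : ℕ, ∃ Z : Set σ, ∀ a, l[i]? = some a → (∀ q, some (true, q) ∈ K i → q ∈ Z) ∧
        (∀ q, some (false, q) ∈ K (i + 1) → q ∈ Z) ∧ (∀ q ∈ Z, q ∈ M.accept → none ∈ K i) ∧
        ∀ q ∈ Z, q ∉ M.accept → ∀ q',
          ((q', HeadMove.moveLeft) ∈ M.step q a → some (false, q') ∈ K i) ∧
          ((q', HeadMove.stay) ∈ M.step q a → q' ∈ Z) ∧
          ((q', HeadMove.moveRight) ∈ M.step q a → some (true, q') ∈ K (i + 1)) := by
      intro i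
      cases h : l[i]? with
      | none => exact ⟨∅, by simp⟩
      | some a =>
        obtain ⟨-, Z, hZ⟩ := hK' i a h
        refine ⟨Z, fun a' ha' => ?_⟩
        obtain rfl : a = a' := by simpa using ha'
        exact hZ
    choose Z hZ using hK''
    have hget : ∀ i, i < l.length → ∃ a, l[i]? = some a := fun i hi =>
      ⟨l[i], List.getElem?_eq_getElem hi⟩
    have hflag : ∀ i, i ≤ l.length → (none ∈ K i ↔ none ∈ K 0) := by
      intro i
      induction i with
      | zero => simp
      | succ i ih =>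
        intro hi
        obtain ⟨a, ha⟩ := hget i (by omega)
        rw [← (hK' i a ha).1, ih (by omega)]
    let O : Set (Option (σ × ℕ)) := {x | (x = none ∧ none ∈ K 0) ∨
      (∃ q, x = some (q, 0) ∧ some (false, q) ∈ K 0) ∨
      (∃ q i, x = some (q, i + 1) ∧ i < l.length ∧ q ∈ Z i) ∨
      (∃ q, x = some (q, l.length + 1) ∧ some (true, q) ∈ K l.length)}
    have oL : ∀ i q, i < l.length → some (false, q) ∈ K i → some (q, i) ∈ O := by
      intro i q hi hq
      cases i with
      | zero => exact Or.inr (Or.inl ⟨q, rfl, hq⟩)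
      | succ i =>
        obtain ⟨a, ha⟩ := hget i (by omega)
        exact Or.inr (Or.inr (Or.inl ⟨q, i, rfl, by omega, (hZ i a ha).2.1 q hq⟩))
    have oR : ∀ i q, i ≤ l.length → some (true, q) ∈ K i → some (q, i + 1) ∈ O := by
      intro i q hi hq
      rcases hi.eq_or_lt with rfl | hi
      · exact Or.inr (Or.inr (Or.inr ⟨q, rfl, hq⟩))
      · obtain ⟨a, ha⟩ := hget i hi
        exact Or.inr (Or.inr (Or.inl ⟨q, i, rfl, hi, (hZ i a ha).1 q hq⟩))
    refine ⟨(hflag _ le_rfl).symm, O, ?_, fun q hq => oR 0 q (by omega) hq, ?_, ?_, ?_, ?_⟩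
    · rintro x hx y ⟨q, i, a, rfl, ha, hy⟩
      have hi : i < l.length := (List.getElem?_eq_some_iff.mp ha).1
      have hq : q ∈ Z i := by
        rcases hx with ⟨h, -⟩ | ⟨q', h, -⟩ | ⟨q', i', h, -, h'⟩ | ⟨q', h, -⟩
        · simp at h
        · simp at h
        · simp only [Option.some.injEq, Prod.mk.injEq, Nat.add_right_cancel_iff] at h
          rw [h.1, h.2]; exact h'
        · simp only [Option.some.injEq, Prod.mk.injEq, Nat.add_right_cancel_iff] at h
          omega
      rcases hy with ⟨h1, rfl⟩ | ⟨h1, q', m, hm, rfl⟩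
      · exact Or.inl ⟨rfl, (hflag i hi.le).mp ((hZ i a ha).2.2.1 q hq h1)⟩
      · have := (hZ i a ha).2.2.2 q hq h1 q'
        cases m with
        | moveLeft => exact oL i q' hi (this.1 hm)
        | stay => exact Or.inr (Or.inr (Or.inl ⟨q', i, rfl, hi, this.2.1 hm⟩))
        | moveRight => exact oR (i + 1) q' hi (this.2.2 hm)
    · intro q hq
      obtain ⟨i, hi⟩ : ∃ i, l.length = i + 1 := ⟨l.length - 1, by omega⟩
      obtain ⟨a, ha⟩ := hget i (by omega)
      rw [hi] at hq ⊢
      exact Or.inr (Or.inr (Or.inl ⟨q, i, rfl, by omega, (hZ i a ha).2.1 q hq⟩))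
    · rintro q (⟨h, -⟩ | ⟨q', h, h'⟩ | ⟨q', i', h, -, h'⟩ | ⟨q', h, -⟩)
      · simp at h
      · simp only [Option.some.injEq, Prod.mk.injEq, and_true] at h
        rw [h]; exact h'
      · simp at h
      · simp at h
    · rintro q (⟨h, -⟩ | ⟨q', h, h'⟩ | ⟨q', i', h, h'', h'⟩ | ⟨q', h, h'⟩)
      · simp at h
      · simp at h
      · simp only [Option.some.injEq, Prod.mk.injEq, Nat.add_right_cancel_iff] at h
        omega
      · simp only [Option.some.injEq, Prod.mk.injEq, and_true] at h
        rw [h]; exact h'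
    · rintro (⟨-, h⟩ | ⟨q', h, h'⟩ | ⟨q', i', h, h'', h'⟩ | ⟨q', h, h'⟩)
      · exact h
      · simp at h
      · simp at h
      · simp at h
  · rintro ⟨hf, O, o1, o2, o3, o4, o5, o6⟩
    let K' : ℕ → Set (Port σ) := fun i => {p | (p = none ∧ none ∈ B) ∨
      (∃ q, p = some (true, q) ∧ some (q, i + 1) ∈ O) ∨ (∃ q, p = some (false, q) ∧ some (q, i) ∈ O)}
    have e0 : ∀ i, none ∈ K' i ↔ none ∈ B := by intro i; simp [K']
    have e1 : ∀ i q, some (true, q) ∈ K' i ↔ some (q, i + 1) ∈ O := by intro i q; simp [K']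
    have e2 : ∀ i q, some (false, q) ∈ K' i ↔ some (q, i) ∈ O := by intro i q; simp [K']
    let K : ℕ → Set (Port σ) := fun i => if i = 0 then B else if i = l.length then C else K' i
    have k1 : ∀ i q, i < l.length → some (true, q) ∈ K i → some (q, i + 1) ∈ O := by
      intro i q hi hq
      simp only [K] at hq
      split_ifs at hq with h1 h2
      · subst h1; exact o2 q hq
      · omega
      · exact (e1 i q).mp hq
    have k2 : ∀ i q, some (false, q) ∈ K (i + 1) → some (q, i + 1) ∈ O := by
      intro i q hq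
      have hq' : some (false, q) ∈ (if i + 1 = l.length then C else K' (i + 1)) := hq
      split_ifs at hq' with h2
      · rw [h2]; exact o3 q hq'
      · exact (e2 _ q).mp hq'
    have k3 : ∀ i q, i < l.length → some (q, i) ∈ O → some (false, q) ∈ K i := by
      intro i q hi hq
      simp only [K]
      split_ifs with h1 h2
      · subst h1; exact o4 q hq
      · omega
      · exact (e2 i q).mpr hq
    have k4 : ∀ i q, some (q, i + 1 + 1) ∈ O → some (true, q) ∈ K (i + 1) := by
      intro i q hq
      show some (true, q) ∈ (if i + 1 = l.length then C else K' (i + 1))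
      split_ifs with h2
      · rw [h2] at hq; exact o5 q hq
      · exact (e1 _ q).mpr hq
    have k5 : ∀ i, none ∈ K i ↔ none ∈ B := by
      intro i
      simp only [K]
      split_ifs with h1 h2
      · rfl
      · exact hf.symm
      · exact e0 i
    refine ⟨K, by simp [K], by simp [K, hn.ne'], ?_⟩
    intro i r hr
    rw [List.getElem?_map] at hr
    obtain ⟨a, ha, rfl⟩ := Option.map_eq_some_iff.mp hr
    have hi : i < l.length := (List.getElem?_eq_some_iff.mp ha).1
    refine ⟨by rw [k5, k5], {q | some (q, i + 1) ∈ O}, fun q hq => k1 i q hi hq,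
      fun q hq => k2 i q hq, fun q hq h1 => ?_, fun q hq h1 q' => ⟨fun hm => ?_, fun hm => ?_,
        fun hm => ?_⟩⟩
    · exact (k5 i).mpr (o6 (o1 _ hq _ ⟨q, i, a, rfl, ha, Or.inl ⟨h1, rfl⟩⟩))
    · exact k3 i q' hi (o1 _ hq _ ⟨q, i, a, rfl, ha, Or.inr ⟨h1, q', _, hm, rfl⟩⟩)
    · exact o1 _ hq _ ⟨q, i, a, rfl, ha, Or.inr ⟨h1, q', _, hm, rfl⟩⟩
    · exact k4 i q' (o1 _ hq _ ⟨q, i, a, rfl, ha, Or.inr ⟨h1, q', _, hm, rfl⟩⟩)

/-- The tape holding a word. -/
def tape (w : List α) : List (Cell α) := [Cell.leftEnd] ++ w.map Cell.letter ++ [Cell.rightEnd]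

theorem tape_length (w : List α) : (tape w).length = w.length + 2 := by simp [tape]

theorem tape_get (w : List α) (i : ℕ) (hi : i < w.length + 2) :
    (tape w)[i]? = some (scan w i) := by
  unfold tape scan
  cases i with
  | zero => simp
  | succ i =>
    simp only [List.nil_append, List.cons_append, List.getElem?_cons_succ,
      Nat.add_one_ne_zero, if_false, Nat.add_sub_cancel]
    by_cases h : i < w.length
    · rw [List.getElem?_append_left (by simpa using h), List.getElem?_map,
        List.getElem?_eq_getElem h]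
      rfl
    · have h' : i = w.length := by omega
      subst h'
      simp

theorem not_accepts_iff (w : List α) :
    ¬ M.Accepts w ↔ ∃ L R, beh M (tape w) L R ∧ some (true, M.start) ∈ L ∧ none ∉ L := by
  have hne : tape w ≠ [] := by simp [tape]
  constructor
  · intro hna
    refine ⟨{p | p = some (true, M.start) ∨ ∃ q, p = some (false, q)},
      {p | ∃ q, p = some (true, q)}, ?_, Or.inl rfl, by simp⟩
    rw [beh_iff M hne, tape_length]
    refine ⟨by simp, {x | ∃ q i, x = some (q, i) ∧ (i = 0 ∨ i = w.length + 3 ∨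
      Relation.ReflTransGen (M.Step w) (M.start, 0) (q, i - 1))}, ?_, ?_, by simp, by simp,
      by simp, by simp⟩
    · rintro x ⟨q0, i0, rfl, hx⟩ y ⟨q, i, a, h, ha, hy⟩
      simp only [Option.some.injEq, Prod.mk.injEq] at h
      obtain ⟨rfl, rfl⟩ := h
      have hi : i < w.length + 2 := by
        rw [← tape_length]; exact (List.getElem?_eq_some_iff.mp ha).1
      rw [tape_get w i hi, Option.some.injEq] at ha
      subst ha
      have hr : Relation.ReflTransGen (M.Step w) (M.start, 0) (q0, i) := by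
        rcases hx with h | h | h
        · omega
        · omega
        · exact h
      rcases hy with ⟨h1, -⟩ | ⟨-, q', m, hm, rfl⟩
      · exact absurd ⟨_, hr, h1⟩ hna
      · refine ⟨q', _, rfl, ?_⟩
        cases m with
        | moveLeft =>
          by_cases h0 : i = 0
          · left; simp [mv, h0]
          · right; right
            exact hr.tail ⟨_, hm, by simp [movePos, mv, h0]⟩
        | stay =>
          right; right
          exact hr.tail ⟨_, hm, by simp [movePos, mv]⟩
        | moveRight =>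
          by_cases h0 : w.length + 1 ≤ i
          · right; left; simp only [mv]; omega
          · right; right
            exact hr.tail ⟨_, hm, by simp [movePos, mv, h0]⟩
    · rintro q (h | ⟨q', h⟩)
      · simp only [Option.some.injEq, Prod.mk.injEq, true_and] at h
        subst h
        exact ⟨_, _, rfl, Or.inr (Or.inr Relation.ReflTransGen.refl)⟩
      · simp at h
  · rintro ⟨L, R, h, h1, h2⟩ ⟨c, hc, hacc⟩
    rw [beh_iff M hne] at h
    obtain ⟨-, O, o1, o2, -, -, -, o6⟩ := h
    have hno : ∀ q i, i < w.length + 2 → some (q, i + 1) ∈ O → q ∉ M.accept := by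
      intro q i hi hq hqa
      exact h2 (o6 (o1 _ hq _ ⟨q, i, _, rfl, tape_get w i hi, Or.inl ⟨hqa, rfl⟩⟩))
    have key : ∀ c, Relation.ReflTransGen (M.Step w) (M.start, 0) c →
        c.2 < w.length + 2 ∧ some (c.1, c.2 + 1) ∈ O := by
      intro c hc
      induction hc with
      | refl => exact ⟨by simp, o2 _ h1⟩
      | @tail b c _ hstep ih =>
        obtain ⟨m, hm, hpos⟩ := hstep
        have := o1 _ ih.2 _ ⟨b.1, b.2, _, rfl, tape_get w b.2 ih.1,
          Or.inr ⟨hno _ _ ih.1 ih.2, c.1, m, hm, rfl⟩⟩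
        have h3 := ih.1
        cases m with
        | moveLeft =>
          simp only [movePos] at hpos
          split_ifs at hpos with h0
          simp only [Option.some.injEq] at hpos
          refine ⟨by omega, ?_⟩
          rwa [show c.2 + 1 = mv (b.2 + 1) HeadMove.moveLeft by simp only [mv]; omega]
        | stay =>
          simp only [movePos, Option.some.injEq] at hpos
          refine ⟨by omega, ?_⟩
          rwa [show c.2 + 1 = mv (b.2 + 1) HeadMove.stay by simp only [mv]; omega]
        | moveRight =>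
          simp only [movePos] at hpos
          split_ifs at hpos with h0
          simp only [Option.some.injEq] at hpos
          refine ⟨by omega, ?_⟩
          rwa [show c.2 + 1 = mv (b.2 + 1) HeadMove.moveRight by simp only [mv]; omega]
    exact hno _ _ (key c hc).1 (key c hc).2 hacc

/-- Behaviour of a word. -/
def wbeh (w : List α) : Rl (Set (Port σ)) := beh M (w.map Cell.letter)

theorem wbeh_append (w w' : List α) : wbeh M (w ++ w') = wbeh M w * wbeh M w' := by
  simp [wbeh, beh_append]

theorem accepts_mono {w w' : List α} (h : ∀ A D, wbeh M w A D → wbeh M w' A D) (u v : List α)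
    (ha : M.Accepts (u ++ w' ++ v)) : M.Accepts (u ++ w ++ v) := by
  by_contra hna
  apply (not_accepts_iff M _).mpr _ ha
  obtain ⟨L, R, h1, h2⟩ := (not_accepts_iff M _).mp hna
  refine ⟨L, R, ?_, h2⟩
  have e : ∀ z : List α, beh M (tape (u ++ z ++ v)) =
      beh M ([Cell.leftEnd] ++ u.map Cell.letter) * wbeh M z *
        beh M (v.map Cell.letter ++ [Cell.rightEnd]) := by
    intro z
    rw [wbeh, ← beh_append, ← beh_append]
    congr 1
    simp [tape]
  rw [e] at h1 ⊢
  obtain ⟨D, ⟨A, g1, g2⟩, g3⟩ := h1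
  exact ⟨D, ⟨A, g1, h A D g2⟩, g3⟩

end Crest.Agent.R294
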