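import Crest.Agent.R294.Cls

/-!
Conjugation by units and chains of idempotents.
-/

set_option autoImplicit false
universe u

namespace Crest.Agent.R294

variable {P : Type u}

theorem count_lemma {X : Type u} [Finite X] {U Lost U' : Set X} (hL : Lost ⊆ U)
    (R : X → X → Prop) (hR : ∀ J, ∀ K ∈ U', ∀ K' ∈ U', R J K → R J K' → K = K')
    (h : ∀ K ∈ U', ∃ J1 ∈ U, ∃ J2 ∈ U, R J1 K ∧ R J2 K ∧ (J1 = J2 → J1 ∉ Lost)) :
    2 * U'.ncard + Lost.ncard ≤ 2 * U.ncard := by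
  classical
  choose! g1 m1 g2 m2 r1 r2 e using h
  let A := {K ∈ U' | g1 K = g2 K}
  have hA : A ⊆ U' := fun K hK => hK.1
  have i1 : Set.InjOn g1 U' := fun K hK K' hK' hh =>
    hR _ K hK K' hK' (r1 K hK) (hh ▸ r1 K' hK')
  have i2 : Set.InjOn g2 U' := fun K hK K' hK' hh =>
    hR _ K hK K' hK' (r2 K hK) (hh ▸ r2 K' hK')
  have a1 : A.ncard ≤ (U \ Lost).ncard := by
    apply Set.ncard_le_ncard_of_injOn g1 _ (i1.mono hA) (Set.toFinite _)
    intro K hK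
    exact ⟨m1 K hK.1, e K hK.1 hK.2⟩
  have a2 : (U \ Lost).ncard + Lost.ncard = U.ncard := Set.ncard_sdiff_add_ncard_of_subset hL
  have a3 : (U' \ A).ncard + A.ncard = U'.ncard := Set.ncard_sdiff_add_ncard_of_subset hA
  have a4 : (g1 '' U' ∪ g2 '' (U' \ A)).ncard ≤ U.ncard := by
    apply Set.ncard_le_ncard _ (Set.toFinite _)
    rintro J (⟨K, hK, rfl⟩ | ⟨K, hK, rfl⟩)
    · exact m1 K hK
    · exact m2 K hK.1
  rw [Set.ncard_union_eq _ (Set.toFinite _) (Set.toFinite _), Set.InjOn.ncard_image i1,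
    Set.InjOn.ncard_image (i2.mono Set.sdiff_subset)] at a4
  · omega
  · rw [Set.disjoint_left]
    rintro J ⟨K, hK, rfl⟩ ⟨K', hK', hh⟩
    have : K = K' := hR _ K hK K' hK'.1 (r1 K hK) (hh ▸ r2 K' hK'.1)
    subst this
    exact hK'.2 ⟨hK, hh.symm⟩

/-- Forward classes containing no protected port. -/
def Unp (Pr : Set P) (t : Rl (Set P)) : Set (Set P) :=
  {K | ∃ p, fwd t t p p ∧ K = clsF t p ∧ ∀ c ∈ K, c ∉ Pr}

/-- Forward classes of `t` not fixed by `f`. -/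
def Lost (t f : Rl (Set P)) : Set (Set P) :=
  {K | ∃ p, fwd t t p p ∧ ¬ fwd t f p p ∧ K = clsF t p}

theorem exists_ends [Finite P] {t f : Rl (Set P)} (hl : Lat t) (ht : t * t = t) (hlf : Lat f)
    (hf : f * f = f) (h : Under t f) {p : P} (hp : fwd f f p p) :
    ∃ a b, fwd t t a a ∧ fwd t t b b ∧ a ∈ clsF f p ∧ b ∈ clsF f p ∧ fwd t f a b := by
  have hs := Under.self hf
  have e1 : {C | ∃ E ∈ (Set.univ : Set (Set P)), t C E} = t.dom := by
    ext C; simp [Rl.dom]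
  have e2 : {C | ∃ E ∈ (Set.univ : Set (Set P)), t E C} = t.im := by
    ext C; simp [Rl.im]
  -- the last crossing
  have h1 : Rf f.im (f * (t * f)) f.dom p p := by rw [h.l, hf]; exact hp
  obtain ⟨q, q1, q2⟩ := h1.last hlf.im hlf.dom hlf (hl.mul hlf)
  rw [h.l, dom_of_idem hf] at q1
  obtain ⟨q', q3, q4⟩ := q2.first LatS.univ hlf.dom hl hlf
  rw [e2] at q4
  obtain ⟨a, a1, a2, a3⟩ := factor hl ht q3
  have a4 : Rf t.im f f.dom a p := by
    intro B C hB hC hBC ha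
    obtain ⟨B', k1, k2⟩ := split_l h hBC
    exact q4 B' C ⟨B, k1⟩ hC k2 (a3 B B' hB trivial k1 ha)
  -- the first crossing
  have h2 : Rf f.im ((f * t) * f) f.dom p p := by rw [h.r, hf]; exact hp
  obtain ⟨r, r1, r2⟩ := h2.first hlf.im hlf.dom (hlf.mul hl) hlf
  have e3 : {C | ∃ B ∈ f.im, (f * t) B C} = f.im := by
    rw [h.r]; exact dom_of_idem (rev_idem hf)
  rw [e3] at r2
  obtain ⟨r', r3, r4⟩ := r1.last hlf.im LatS.univ hlf hl
  rw [e1] at r3
  obtain ⟨b, b1, b2, b3⟩ := factor hl ht r4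
  have b4 : Rf f.im f t.dom p b := by
    intro B C hB hC hBC hpB
    obtain ⟨C', k1, k2⟩ := split_r h hBC
    exact b2 C' C trivial hC k2 (r3 B C' hB ⟨C, k2⟩ k1 hpB)
  refine ⟨a, b, a1, b1, ⟨ext1 h q1 (a2.mono (Set.subset_univ _) subset_rfl),
    a4.mono h.im subset_rfl⟩, ⟨b4.mono subset_rfl h.dom,
    ext3 h (b3.mono subset_rfl (Set.subset_univ _)) r2⟩, ?_⟩
  intro B D hB hD hBD ha
  obtain ⟨C, k1, k2⟩ := split_l hs hBD
  exact b4 C D ⟨B, k1⟩ hD k2 (a4 B C hB ⟨D, k2⟩ k1 ha)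

theorem fwd_sand {t f : Rl (Set P)} (h : Under t f) {p a b q : P} (h1 : fwd t t p a)
    (h2 : fwd t f a b) (h3 : fwd t t b q) : fwd t f p q := by
  have k1 := fwd.mul subset_rfl h.dom h1 h2
  rw [h.l] at k1
  have k2 := fwd.mul h.im subset_rfl k1 h3
  rwa [h.r] at k2

theorem chain_step_half [Finite P] {t f : Rl (Set P)} (hl : Lat t) (ht : t * t = t)
    (hlf : Lat f) (hf : f * f = f) (h : Under t f) {Pr : Set P} (hPr : ∀ c ∈ Pr, fwd t f c c) :
    2 * (Unp Pr f).ncard + (Lost t f).ncard ≤ 2 * (Unp Pr t).ncard := by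
  apply count_lemma _ (fun J K => J.Nonempty ∧ J ⊆ K)
  · rintro J K ⟨p, -, rfl, -⟩ K' ⟨p', -, rfl, -⟩ ⟨⟨c, hc⟩, h1⟩ ⟨-, h2⟩
    rw [← clsF_eq_of_mem hf (h1 hc), ← clsF_eq_of_mem hf (h2 hc)]
  · rintro K ⟨p, hp, rfl, hK⟩
    obtain ⟨a, b, a1, b1, a2, b2, hab⟩ := exists_ends hl ht hlf hf h hp
    have sa : clsF t a ⊆ clsF f p := Set.subset_union_left.trans (cls_subset_clsF h a2)
    have sb : clsF t b ⊆ clsF f p := Set.subset_union_left.trans (cls_subset_clsF h b2)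
    refine ⟨clsF t a, ⟨a, a1, rfl, fun c hc => hK c (sa hc)⟩, clsF t b,
      ⟨b, b1, rfl, fun c hc => hK c (sb hc)⟩, ⟨⟨a, a1, a1⟩, sa⟩, ⟨⟨b, b1, b1⟩, sb⟩, ?_⟩
    rintro hh ⟨q, -, hq, he⟩
    have ha : a ∈ clsF t q := he ▸ (⟨a1, a1⟩ : a ∈ clsF t a)
    have hb : b ∈ clsF t q := by rw [← he, hh]; exact ⟨b1, b1⟩
    exact hq (fwd_sand h ha.1 hab hb.2)
  · rintro K ⟨p, hp, hq, rfl⟩
    refine ⟨p, hp, rfl, fun c hc hcP => hq (fwd_sand h hc.1 (hPr c hcP) hc.2)⟩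

theorem del_le_lost [Finite P] {t f : Rl (Set P)} (ht : t * t = t) :
    del t f ≤ (Lost t f).ncard + (Lost t.rev f.rev).ncard := by
  refine le_trans (Set.ncard_le_ncard ?_ (Set.toFinite _)) (Set.ncard_union_le _ _)
  rintro K ⟨p, hp, rfl⟩
  by_cases h1 : fwd t t p p → fwd t f p p
  · have h2 : ¬ (fwd t.rev t.rev p p → fwd t.rev f.rev p p) := fun h2 => hp ⟨h1, h2⟩
    push Not at h2
    exact Or.inr ⟨p, h2.1, h2.2, by rw [← cls_rev, cls_eq_clsF (rev_idem ht) h2.1]⟩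
  · push Not at h1
    exact Or.inl ⟨p, h1.1, h1.2, cls_eq_clsF ht h1.1⟩

/-- The potential of an idempotent. -/
noncomputable def pot (Pr Pr' : Set P) (t : Rl (Set P)) : ℕ :=
  (Unp Pr t).ncard + (Unp Pr' t.rev).ncard

theorem chain_step [Finite P] {t f : Rl (Set P)} (hl : Lat t) (ht : t * t = t)
    (hlf : Lat f) (hf : f * f = f) (h : Under t f) {Pr Pr' : Set P}
    (hPr : ∀ c ∈ Pr, fwd t f c c) (hPr' : ∀ c ∈ Pr', fwd t.rev f.rev c c) :
    del t f + 2 * pot Pr Pr' f ≤ 2 * pot Pr Pr' t := by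
  have h1 := chain_step_half hl ht hlf hf h hPr
  have h2 := chain_step_half hl.rev (rev_idem ht) hlf.rev (rev_idem hf) h.rev hPr'
  have h3 := del_le_lost (f := f) ht
  unfold pot
  omega

/-- Ports whose whole class avoids the bad set. -/
def Prot (Z : Set P) (f : Rl (Set P)) : Set P := {p | fwd f f p p ∧ ∀ c ∈ clsF f p, c ∉ Z}

theorem unp_le [Finite P] {t f : Rl (Set P)} (h : Under t f) (hf : f * f = f)
    {Z : Set P} (hZ : ∀ c ∈ Z, c ∈ cls t c) : (Unp (Prot Z f) f).ncard ≤ (cls t '' Z).ncard := by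
  apply ncard_le_of_meets h hf hZ
  rintro J ⟨p, hp, rfl, hJ⟩
  have := hJ p ⟨hp, hp⟩
  by_contra hcon
  push Not at hcon
  exact this ⟨hp, fun c hc => hcon p c (cls_eq_clsF hf hp).symm hc⟩

theorem pot_le [Finite P] {t f : Rl (Set P)} (h : Under t f) (hf : f * f = f)
    {Z : Set P} (hZ : ∀ c ∈ Z, c ∈ cls t c) :
    pot (Prot Z f) (Prot Z f.rev) f ≤ 2 * (cls t '' Z).ncard := by
  have h1 := unp_le h hf hZ
  have h2 := unp_le h.rev (rev_idem hf) (Z := Z) (by simpa only [cls_rev] using hZ)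
  have : cls t.rev = cls t := funext (cls_rev t)
  rw [this] at h2
  unfold pot
  omega

section conj
variable {t g g' : Rl (Set P)}

/-- The correspondence of classes under a unit. -/
def cj (t g g' : Rl (Set P)) (J : Set P) : Set P :=
  {q | ∃ p ∈ J, (fwd t g' q p ∧ fwd t g p q) ∨ (fwd t.rev g.rev q p ∧ fwd t.rev g'.rev p q)}

theorem cj_rev (J : Set P) : cj t.rev g'.rev g.rev J = cj t g g' J := by
  ext q
  constructor
  · rintro ⟨p, hp, h⟩; exact ⟨p, hp, h.symm⟩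
  · rintro ⟨p, hp, h⟩; exact ⟨p, hp, h.symm⟩

theorem cj_cls (ht : t * t = t) (hg : Under t g) (hg' : Under t g') (h1 : g * g' = t)
    (h2 : g' * g = t) {p q : P} (k1 : fwd t g' q p) (k2 : fwd t g p q) :
    cj t g g' (cls t p) = cls t q := by
  have hq : fwd t t q q := by
    have := fwd.mul hg'.im hg.dom k1 k2
    rwa [h2] at this
  have hp : fwd t t p p := by
    have := fwd.mul hg.im hg'.dom k2 k1
    rwa [h1] at this
  rw [cls_eq_clsF ht hp, cls_eq_clsF ht hq]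
  ext q'
  constructor
  · rintro ⟨p', ⟨m1, m2⟩, ⟨n1, n2⟩ | ⟨n1, n2⟩⟩
    · have a1 := fwd.mul (Rl.im_mul_subset _ _) hg.dom (fwd.mul hg'.im subset_rfl k1 m1) n2
      have a2 := fwd.mul (Rl.im_mul_subset _ _) hg.dom (fwd.mul hg'.im subset_rfl n1 m2) k2
      rw [hg'.r, h2] at a1 a2
      exact ⟨a1, a2⟩
    · have a1 := fwd.mul hg'.im subset_rfl k1 m1
      have a2 := fwd.mul subset_rfl hg.dom m2 k2
      rw [hg'.r] at a1
      rw [hg.l] at a2
      constructor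
      · rintro B C hB ⟨D, hD⟩ hBC hqB
        rw [← h2] at hD
        obtain ⟨E, e1, e2⟩ := hD
        have hE : E ∈ t.dom := hg.dom ⟨D, e2⟩
        exact n2 E C hE ⟨B, hBC⟩ e1 (a1 B E hB hE (join_l hg' hBC e1) hqB)
      · rintro B C ⟨A, hA⟩ hC hBC hqB
        rw [← h2] at hA
        obtain ⟨E, e1, e2⟩ := hA
        have hE : E ∈ t.im := hg'.im ⟨A, e1⟩
        exact a2 E C hE hC (join_r hg e2 hBC) (n1 B E ⟨C, hBC⟩ hE e2 hqB)
  · rintro ⟨m1, m2⟩
    refine ⟨p, ⟨hp, hp⟩, Or.inl ⟨?_, ?_⟩⟩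
    · have := fwd.mul subset_rfl hg'.dom m2 k1
      rwa [hg'.l] at this
    · have := fwd.mul hg.im subset_rfl k2 m1
      rwa [hg.r] at this

theorem conj_half {x : Rl (Set P)} (hl : Lat t) (ht : t * t = t) (hlg : Lat g) (hlg' : Lat g')
    (hg : Under t g) (hg' : Under t g') (h1 : g * g' = t) (h2 : g' * g = t) (hx : Under t x)
    {q : P} (hq : fwd t t q q) (hb : ¬ fwd t (g' * x * g) q q) :
    ∃ p, ¬ Good t x p ∧ cj t g g' (cls t p) = cls t q := by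
  have hq' : Rf t.im (g' * g) t.dom q q := by
    have := hq
    unfold fwd at this
    rwa [← h2] at this ⊢
  obtain ⟨p, p1, p2⟩ := hq'.last hl.im hl.dom hlg' hlg
  have k1 : fwd t g' q p := by
    apply p1.mono subset_rfl
    rintro C ⟨D, hD⟩
    rw [← h1] at hD
    obtain ⟨E, e1, e2⟩ := hD
    exact ⟨E, hg'.dom ⟨D, e2⟩, e1⟩
  have k2 : fwd t g p q := p2.mono (Set.subset_univ _) subset_rfl
  refine ⟨p, fun hgood => hb ?_, cj_cls ht hg hg' h1 h2 k1 k2⟩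
  have hp : fwd t t p p := by
    have := fwd.mul hg.im hg'.dom k2 k1
    rwa [h1] at this
  exact fwd.mul (hg'.mul hx).im hg.dom (fwd.mul hg'.im hx.dom k1 (hgood.1 hp)) k2

theorem del_conj [Finite P] {x : Rl (Set P)} (hl : Lat t) (ht : t * t = t) (hlg : Lat g)
    (hlg' : Lat g') (hg : Under t g) (hg' : Under t g') (h1 : g * g' = t) (h2 : g' * g = t)
    (hx : Under t x) : del t (g' * x * g) ≤ del t x := by
  have : cls t '' {c | ¬ Good t (g' * x * g) c} ⊆ cj t g g' '' (cls t '' {c | ¬ Good t x c}) := by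
    rintro K ⟨q, hq, rfl⟩
    by_cases k1 : fwd t t q q → fwd t (g' * x * g) q q
    · have k2 : ¬ (fwd t.rev t.rev q q → fwd t.rev (g' * x * g).rev q q) := fun k2 => hq ⟨k1, k2⟩
      push Not at k2
      rw [rev_sand] at k2
      obtain ⟨p, p1, p2⟩ := conj_half hl.rev (rev_idem ht) hlg'.rev hlg.rev hg'.rev hg.rev
        (by rw [← Rl.rev_mul, h1]) (by rw [← Rl.rev_mul, h2]) hx.rev k2.1 k2.2
      rw [cj_rev, cls_rev, cls_rev] at p2
      exact ⟨cls t p, ⟨p, fun hh => p1 hh.rev, rfl⟩, p2⟩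
    · push Not at k1
      obtain ⟨p, p1, p2⟩ := conj_half hl ht hlg hlg' hg hg' h1 h2 hx k1.1 k1.2
      exact ⟨cls t p, ⟨p, p1, rfl⟩, p2⟩
  exact (Set.ncard_le_ncard this (Set.toFinite _)).trans (Set.ncard_image_le (Set.toFinite _))

end conj

end Crest.Agent.R294
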