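import Crest.Agent.R294.Lat

/-!
Classes of through-going ports of an idempotent behaviour, the defect `del t x` of an element of
the local monoid of `t`, and how it behaves under products, change of context, conjugation by
units and along chains of idempotents.
-/

set_option autoImplicit false
universe u

namespace Crest.Agent.R294

variable {P : Type u}

/-- `x` lies in the local monoid of `t`. -/
structure Under {α : Type u} (t x : Rl α) : Prop where
  l : t * x = x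
  r : x * t = x

theorem Under.rev {α : Type u} {t x : Rl α} (h : Under t x) : Under t.rev x.rev :=
  ⟨by rw [← Rl.rev_mul, h.r], by rw [← Rl.rev_mul, h.l]⟩

theorem Under.dom {α : Type u} {t x : Rl α} (h : Under t x) : x.dom ⊆ t.dom := by
  have := Rl.dom_mul_subset t x
  rwa [h.l] at this

theorem Under.im {α : Type u} {t x : Rl α} (h : Under t x) : x.im ⊆ t.im := by
  have := Rl.im_mul_subset x t
  rwa [h.r] at this

theorem Under.mul {α : Type u} {t x y : Rl α} (hx : Under t x) (hy : Under t y) :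
    Under t (x * y) :=
  ⟨by rw [← mul_assoc, hx.l], by rw [mul_assoc, hy.r]⟩

theorem Under.trans {α : Type u} {t f x : Rl α} (hf : Under t f) (hx : Under f x) : Under t x :=
  ⟨by rw [← hx.l, ← mul_assoc, hf.l], by rw [← hx.r, mul_assoc, hf.r]⟩

theorem Under.self {α : Type u} {t : Rl α} (ht : t * t = t) : Under t t := ⟨ht, ht⟩

theorem Under.sand {α : Type u} {t : Rl α} (ht : t * t = t) (x : Rl α) : Under t (t * x * t) :=
  ⟨by rw [← mul_assoc, ← mul_assoc, ht], by rw [mul_assoc, ht]⟩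

theorem Under.pow {α : Type u} {t x : Rl α} (hx : Under t x) (n : ℕ) : Under t (x ^ (n + 1)) := by
  induction n with
  | zero => simpa using hx
  | succ n ih => rw [pow_succ]; exact ih.mul hx

theorem rev_idem {α : Type u} {t : Rl α} (ht : t * t = t) : t.rev * t.rev = t.rev := by
  rw [← Rl.rev_mul, ht]

section inc
variable {t f : Rl (Set P)} (h : Under t f)
include h

theorem split_r {B C : Set P} (hBC : f B C) : ∃ C', f B C' ∧ t C' C := by
  rw [← h.r] at hBC; exact hBC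
theorem split_l {B C : Set P} (hBC : f B C) : ∃ B', t B B' ∧ f B' C := by
  rw [← h.l] at hBC; exact hBC
theorem join_r {B C' C : Set P} (h1 : f B C') (h2 : t C' C) : f B C := by
  rw [← h.r]; exact ⟨C', h1, h2⟩
theorem join_l {B B' C : Set P} (h1 : t B B') (h2 : f B' C) : f B C := by
  rw [← h.l]; exact ⟨B', h1, h2⟩

theorem ext1 {p a c : P} (h1 : fwd f f p a) (h2 : Rf f.im t t.dom a c) : fwd f f p c := by
  rintro B C hB ⟨D, hD⟩ hBC hp
  obtain ⟨C', g1, g2⟩ := split_r h hBC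
  exact h2 C' C ⟨B, g1⟩ (h.dom ⟨D, hD⟩) g2 (h1 B C' hB ⟨D, join_l h g2 hD⟩ g1 hp)

theorem ext2 {p b c : P} (h1 : fwd f f p b) (h2 : Rf f.dom t.rev t.im b c) : fwd f f p c := by
  rintro B C hB ⟨D, hD⟩ hBC hp
  obtain ⟨C', g1, g2⟩ := split_l h hD
  exact h2 C' C ⟨D, g2⟩ (h.im ⟨B, hBC⟩) g1 (h1 B C' hB ⟨D, g2⟩ (join_r h hBC g1) hp)

theorem ext3 {p b c : P} (h2 : Rf t.im t f.dom c b) (h1 : fwd f f b p) : fwd f f c p := by
  rintro B C ⟨A, hA⟩ hC hBC hc
  obtain ⟨B', g1, g2⟩ := split_l h hBC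
  exact h1 B' C ⟨A, join_r h hA g1⟩ hC g2 (h2 B B' (h.im ⟨A, hA⟩) ⟨C, g2⟩ g1 hc)

theorem ext4 {p a c : P} (h2 : Rf t.dom t.rev f.im c a) (h1 : fwd f f a p) : fwd f f c p := by
  rintro B C ⟨A, hA⟩ hC hBC hc
  obtain ⟨B', g1, g2⟩ := split_r h hA
  exact h1 B' C ⟨A, g1⟩ hC (join_l h g2 hBC) (h2 B B' (h.dom ⟨C, hBC⟩) ⟨A, g1⟩ g2 hc)

end inc

/-- The forward class of a port. -/
def clsF (t : Rl (Set P)) (p : P) : Set P := {q | fwd t t p q ∧ fwd t t q p}

/-- The unified class of a port. -/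
def cls (t : Rl (Set P)) (p : P) : Set P := clsF t p ∪ clsF t.rev p

theorem cls_rev (t : Rl (Set P)) (p : P) : cls t.rev p = cls t p := Set.union_comm _ _

theorem cls_subset_clsF {t f : Rl (Set P)} (h : Under t f) {p c : P} (hc : c ∈ clsF f p) :
    cls t c ⊆ clsF f p := by
  rintro c' (⟨h1, h2⟩ | ⟨h1, h2⟩)
  · exact ⟨ext1 h hc.1 (Rf.mono h1 h.im subset_rfl), ext3 h (Rf.mono h2 subset_rfl h.dom) hc.2⟩
  · exact ⟨ext2 h hc.1 (Rf.mono h1 h.dom subset_rfl), ext4 h (Rf.mono h2 subset_rfl h.im) hc.2⟩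

theorem cls_subset_cls {t f : Rl (Set P)} (h : Under t f) {p c : P} (hc : c ∈ cls f p) :
    cls t c ⊆ cls f p := by
  rcases hc with hc | hc
  · exact (cls_subset_clsF h hc).trans Set.subset_union_left
  · rw [← cls_rev t]
    exact (cls_subset_clsF h.rev hc).trans Set.subset_union_right

theorem cls_eq_clsF {t : Rl (Set P)} (ht : t * t = t) {p : P} (hp : fwd t t p p) :
    cls t p = clsF t p :=
  Set.Subset.antisymm (cls_subset_clsF (Under.self ht) ⟨hp, hp⟩) Set.subset_union_left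

theorem cls_symm {t : Rl (Set P)} {p q : P} (h : q ∈ cls t p) : p ∈ cls t q := by
  rcases h with h | h
  · exact Or.inl ⟨h.2, h.1⟩
  · exact Or.inr ⟨h.2, h.1⟩

theorem cls_eq_of_mem {t : Rl (Set P)} (ht : t * t = t) {p q : P} (h : q ∈ cls t p) :
    cls t q = cls t p :=
  Set.Subset.antisymm (cls_subset_cls (Under.self ht) h)
    (cls_subset_cls (Under.self ht) (cls_symm h))

theorem clsF_eq_of_mem {t : Rl (Set P)} (ht : t * t = t) {p q : P} (h : q ∈ clsF t p) :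
    clsF t q = clsF t p := by
  ext r
  exact ⟨fun hr => ⟨h.1.trans ht hr.1, hr.2.trans ht h.2⟩,
    fun hr => ⟨h.2.trans ht hr.1, hr.2.trans ht h.1⟩⟩

theorem ncard_le_of_meets [Finite P] {t f : Rl (Set P)} (h : Under t f) (hf : f * f = f)
    {Z : Set P} (hZ : ∀ c ∈ Z, c ∈ cls t c) {K : Set (Set P)}
    (hK : ∀ J ∈ K, ∃ p c, J = cls f p ∧ c ∈ J ∧ c ∈ Z) : K.ncard ≤ (cls t '' Z).ncard := by
  have : K ⊆ (fun J : Set P => ⋃ c ∈ J, cls f c) '' (cls t '' Z) := by
    intro J hJ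
    obtain ⟨p, c, rfl, hc, hcZ⟩ := hK J hJ
    refine ⟨cls t c, ⟨c, hcZ, rfl⟩, ?_⟩
    ext r
    simp only [Set.mem_iUnion]
    constructor
    · rintro ⟨c', hc', hr⟩
      rwa [cls_eq_of_mem hf (cls_subset_cls h hc hc')] at hr
    · intro hr
      exact ⟨c, hZ c hcZ, by rwa [cls_eq_of_mem hf hc]⟩
  exact (Set.ncard_le_ncard this (Set.toFinite _)).trans (Set.ncard_image_le (Set.toFinite _))

/-- `x` fixes `c` in every direction in which `t` fixes it. -/
def Good (t x : Rl (Set P)) (c : P) : Prop :=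
  (fwd t t c c → fwd t x c c) ∧ (fwd t.rev t.rev c c → fwd t.rev x.rev c c)

theorem Good.rev {t x : Rl (Set P)} {c : P} (h : Good t x c) : Good t.rev x.rev c := ⟨h.2, h.1⟩

theorem mem_cls_of_not_good {t x : Rl (Set P)} {c : P} (h : ¬ Good t x c) : c ∈ cls t c := by
  by_contra hc
  apply h
  constructor
  · intro h1; exact absurd (Or.inl ⟨h1, h1⟩) hc
  · intro h1; exact absurd (Or.inr ⟨h1, h1⟩) hc

theorem Good.mul {t x y : Rl (Set P)} {c : P} (hx : Under t x) (hy : Under t y)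
    (h1 : Good t x c) (h2 : Good t y c) : Good t (x * y) c := by
  constructor
  · intro h; exact fwd.mul hx.im hy.dom (h1.1 h) (h2.1 h)
  · intro h
    rw [Rl.rev_mul]
    exact fwd.mul hy.rev.im hx.rev.dom (h2.2 h) (h1.2 h)

/-- The number of classes of `t` that `x` does not fix. -/
noncomputable def del (t x : Rl (Set P)) : ℕ := (cls t '' {c | ¬ Good t x c}).ncard

theorem del_le_card [Finite P] (t x : Rl (Set P)) : del t x ≤ Nat.card P :=
  (Set.ncard_image_le (Set.toFinite _)).trans (by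
    rw [← Set.ncard_univ]; exact Set.ncard_le_ncard (Set.subset_univ _) (Set.toFinite _))

/-- An element fixing all classes has all the implications of `t`. -/
theorem le_of_good [Finite P] {t x : Rl (Set P)} (hl : Lat t) (ht : t * t = t) (hx : Under t x)
    (h : ∀ c, Good t x c) {A D : Set P} (hAD : x A D) : t A D := by
  apply hl.mem_of_imp (hx.dom ⟨D, hAD⟩) (hx.im ⟨A, hAD⟩)
  · intro a b hab ha
    obtain ⟨c, c1, c2, c3⟩ := factor hl ht hab
    exact pass hx.l hx.r ((h c).1 c1) c2 c3 A D trivial trivial hAD ha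
  · intro b a hab hb
    obtain ⟨c, c1, c2, c3⟩ := factor hl.rev (rev_idem ht) hab
    exact pass hx.rev.l hx.rev.r ((h c).2 c1) c2 c3 D A trivial trivial hAD hb

theorem one_le_del [Finite P] {t x : Rl (Set P)} (hl : Lat t) (ht : t * t = t) (hx : Under t x)
    (h : ¬ ∀ A D, x A D → t A D) : 1 ≤ del t x := by
  apply Nat.one_le_iff_ne_zero.mpr
  intro h0
  rw [del, Set.ncard_eq_zero (Set.toFinite _), Set.image_eq_empty] at h0
  apply h
  intro A D hAD
  apply le_of_good hl ht hx _ hAD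
  intro c
  by_contra hc
  have : c ∈ ({c | ¬ Good t x c} : Set P) := hc
  rw [h0] at this
  exact this

/-- Change of context. -/
theorem ctx [Finite P] {t f x : Rl (Set P)} (hl : Lat t) (ht : t * t = t) (hlf : Lat f)
    (hf : f * f = f) (h : Under t f) (hx : Under t x) {p : P} (hp : fwd f f p p)
    (hg : ∀ c ∈ clsF f p, Good t x c) : fwd f (f * x * f) p p := by
  rintro B1 B4 hB1 hB4 ⟨B3, ⟨B2, h12, h23⟩, h34⟩ hp1
  by_contra hp4
  have hs := Under.self hf
  let T := {z : Set P × Set P × Set P × Set P //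
    z.1 ∈ f.im ∧ f z.1 z.2.1 ∧ t z.2.1 z.2.2.1 ∧ f z.2.2.1 z.2.2.2 ∧ z.2.2.2 ∈ f.dom}
  let TL := {z : T // p ∈ z.1.1}
  let TG := {z : T // p ∉ z.1.2.2.2}
  set L1 := ⋂ z : TL, z.1.1.1
  set L2 := ⋂ z : TL, z.1.1.2.1
  set L3 := ⋂ z : TL, z.1.1.2.2.1
  set L4 := ⋂ z : TL, z.1.1.2.2.2
  set G1 := ⋃ z : TG, z.1.1.1
  set G2 := ⋃ z : TG, z.1.1.2.1
  set G3 := ⋃ z : TG, z.1.1.2.2.1
  set G4 := ⋃ z : TG, z.1.1.2.2.2
  have l1 : L1 ∈ f.im := hlf.im.int _ fun z : TL => z.1.2.1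
  have l12 : f L1 L2 := hlf.int _ _ fun z : TL => z.1.2.2.1
  have l23 : t L2 L3 := hl.int _ _ fun z : TL => z.1.2.2.2.1
  have l34 : f L3 L4 := hlf.int _ _ fun z : TL => z.1.2.2.2.2.1
  have l4 : L4 ∈ f.dom := hlf.dom.int _ fun z : TL => z.1.2.2.2.2.2
  have lp : p ∈ L1 := Set.mem_iInter.mpr fun z : TL => z.2
  have g1 : G1 ∈ f.im := hlf.im.un _ fun z : TG => z.1.2.1
  have g12 : f G1 G2 := hlf.un _ _ fun z : TG => z.1.2.2.1
  have g23 : t G2 G3 := hl.un _ _ fun z : TG => z.1.2.2.2.1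
  have g34 : f G3 G4 := hlf.un _ _ fun z : TG => z.1.2.2.2.2.1
  have g4 : G4 ∈ f.dom := hlf.dom.un _ fun z : TG => z.1.2.2.2.2.2
  have gp : p ∉ G4 := by
    intro hh
    obtain ⟨z, hz⟩ := Set.mem_iUnion.mp hh
    exact z.2 hz
  have fL2 : ∀ a ∈ L2, fwd f f p a := by
    rintro a ha B C hB ⟨D, hD⟩ hBC hpB
    obtain ⟨C3, k1, k2⟩ := split_l h hD
    obtain ⟨C4, k3, k4⟩ := split_l hs k2
    exact Set.mem_iInter.mp ha ⟨⟨(B, C, C3, C4), hB, hBC, k1, k3, ⟨D, k4⟩⟩, hpB⟩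
  have fL3 : ∀ a ∈ L3, fwd f f p a := by
    rintro a ha B C hB ⟨D, hD⟩ hBC hpB
    obtain ⟨C2, k1, k2⟩ := split_r h hBC
    obtain ⟨C4, k3, k4⟩ := split_l hs hD
    exact Set.mem_iInter.mp ha ⟨⟨(B, C2, C, C4), hB, k1, k2, k3, ⟨D, k4⟩⟩, hpB⟩
  have fG2 : ∀ a ∉ G2, fwd f f a p := by
    rintro a ha B C ⟨A, hA⟩ hC hBC haB
    by_contra hpC
    obtain ⟨C1, k1, k2⟩ := split_l hs hA
    obtain ⟨C3, k3, k4⟩ := split_l h hBC
    exact ha (Set.mem_iUnion.mpr ⟨⟨⟨(C1, B, C3, C), ⟨A, k1⟩, k2, k3, k4, hC⟩, hpC⟩, haB⟩)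
  have fG3 : ∀ a ∉ G3, fwd f f a p := by
    rintro a ha B C ⟨A, hA⟩ hC hBC haB
    by_contra hpC
    obtain ⟨C1, k1, k2⟩ := split_l hs hA
    obtain ⟨C2, k3, k4⟩ := split_r h k2
    exact ha (Set.mem_iUnion.mpr ⟨⟨⟨(C1, C2, B, C), ⟨A, k1⟩, k3, k4, hBC, hC⟩, hpC⟩, haB⟩)
  have key : t ((B2 ∩ L2) ∪ G2) ((B3 ∩ L3) ∪ G3) := by
    apply hl.mem_of_imp
    · exact hl.dom.union (hl.dom.inter (hx.dom ⟨B3, h23⟩) ⟨L3, l23⟩) ⟨G3, g23⟩
    · exact hl.im.union (hl.im.inter (hx.im ⟨B2, h23⟩) ⟨L2, l23⟩) ⟨G2, g23⟩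
    · rintro a b hab (⟨ha1, ha2⟩ | ha)
      · by_cases hb : b ∈ G3
        · exact Or.inr hb
        · left
          refine ⟨?_, hab L2 L3 trivial trivial l23 ha2⟩
          obtain ⟨c, c1, c2, c3⟩ := factor hl ht hab
          have hc : c ∈ clsF f p :=
            ⟨ext1 h (fL2 a ha2) (c2.mono (Set.subset_univ _) subset_rfl),
              ext3 h (c3.mono subset_rfl (Set.subset_univ _)) (fG3 b hb)⟩
          exact pass hx.l hx.r ((hg c hc).1 c1) c2 c3 B2 B3 trivial trivial h23 ha1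
      · exact Or.inr (hab G2 G3 trivial trivial g23 ha)
    · rintro b a hab (⟨hb1, hb2⟩ | hb)
      · by_cases ha : a ∈ G2
        · exact Or.inr ha
        · left
          refine ⟨?_, hab L3 L2 trivial trivial l23 hb2⟩
          obtain ⟨c, c1, c2, c3⟩ := factor hl.rev (rev_idem ht) hab
          have hc : c ∈ clsF f p :=
            ⟨ext2 h (fL3 b hb2) (c2.mono (Set.subset_univ _) subset_rfl),
              ext4 h (c3.mono subset_rfl (Set.subset_univ _)) (fG2 a ha)⟩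
          exact pass hx.rev.l hx.rev.r ((hg c hc).2 c1) c2 c3 B3 B2 trivial trivial h23 hb1
      · exact Or.inr (hab G3 G2 trivial trivial g23 hb)
  have k12 := hlf.union (hlf.inter h12 l12) g12
  have k34 := hlf.union (hlf.inter h34 l34) g34
  have k14 := join_l hs (join_r h k12 key) k34
  have := hp _ _ (hlf.im.union (hlf.im.inter hB1 l1) g1) (hlf.dom.union (hlf.dom.inter hB4 l4) g4)
    k14 (Or.inl ⟨hp1, lp⟩)
  rcases this with hh | hh
  · exact hp4 hh.1
  · exact gp hh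

theorem rev_sand {α : Type u} (f x g : Rl α) : (f * x * g).rev = g.rev * x.rev * f.rev := by
  rw [Rl.rev_mul, Rl.rev_mul, mul_assoc]

theorem del_ctx [Finite P] {t f x : Rl (Set P)} (hl : Lat t) (ht : t * t = t) (hlf : Lat f)
    (hf : f * f = f) (h : Under t f) (hx : Under t x) : del f (f * x * f) ≤ del t x := by
  apply ncard_le_of_meets h hf (fun c hc => mem_cls_of_not_good hc)
  rintro J ⟨p, hp, rfl⟩
  by_contra hcon
  push Not at hcon
  apply hp
  constructor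
  · intro h1
    apply ctx hl ht hlf hf h hx h1
    intro c hc
    by_contra hgc
    exact hcon p c rfl (Or.inl hc) hgc
  · intro h1
    rw [rev_sand]
    apply ctx hl.rev (rev_idem ht) hlf.rev (rev_idem hf) h.rev hx.rev h1
    intro c hc
    apply Good.rev
    by_contra hgc
    exact hcon p c rfl (Or.inr hc) hgc

end Crest.Agent.R294
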