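import Crest.Agent.R294.Auto

/-!
Deterministic automata: an element of the local monoid of `t` with all implications of `t`
equals `t`.
-/

set_option autoImplicit false
universe u

namespace Crest.Agent.R294
open Crest.TwoWay

variable {α : Type} {σ : Type u} (M : TwoWayNFA α σ)

def inN (n : ℕ) : Bool → σ → Option (σ × ℕ)
  | true, q => some (q, 1)
  | false, q => some (q, n)

def outN (n : ℕ) : Port σ → Option (σ × ℕ)
  | none => none
  | some (false, q) => some (q, 0)
  | some (true, q) => some (q, n + 1)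

def memIn (B C : Set (Port σ)) : Bool → σ → Prop
  | true, q => some (true, q) ∈ B
  | false, q => some (false, q) ∈ C

def memOut (B C : Set (Port σ)) : Port σ → Prop
  | none => none ∈ B
  | some (false, q) => some (false, q) ∈ B
  | some (true, q) => some (true, q) ∈ C

/-- Entering the block at `(s, q)` may lead to the outcome `o`. -/
def Outc (l : List (Cell α)) (s : Bool) (q : σ) (o : Port σ) : Prop :=
  Relation.ReflTransGen (Nx M l) (inN l.length s q) (outN l.length o)

theorem beh_char {l : List (Cell α)} (hl : l ≠ []) (B C : Set (Port σ)) :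
    beh M l B C ↔ (none ∈ B ↔ none ∈ C) ∧
      ∀ s q o, Outc M l s q o → memIn B C s q → memOut B C o := by
  rw [beh_iff M hl]
  apply and_congr_right
  intro hf
  constructor
  · rintro ⟨O, o1, o2, o3, o4, o5, o6⟩ s q o h hin
    have h1 : inN l.length s q ∈ O := by
      cases s
      · exact o3 q hin
      · exact o2 q hin
    have h2 : ∀ y, Relation.ReflTransGen (Nx M l) (inN l.length s q) y → y ∈ O := by
      intro y hy
      induction hy with
      | refl => exact h1
      | tail _ hs ih => exact o1 _ ih _ hs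
    have h3 := h2 _ h
    rcases o with _ | ⟨_ | _, q'⟩
    · exact o6 h3
    · exact o4 q' h3
    · exact o5 q' h3
  · intro h
    refine ⟨{y | ∃ s q, memIn B C s q ∧ Relation.ReflTransGen (Nx M l) (inN l.length s q) y},
      ?_, fun q hq => ⟨true, q, hq, .refl⟩, fun q hq => ⟨false, q, hq, .refl⟩, ?_, ?_, ?_⟩
    · rintro x ⟨s, q, h1, h2⟩ y hy
      exact ⟨s, q, h1, h2.tail hy⟩
    · rintro q' ⟨s, q, h1, h2⟩
      exact h s q (some (false, q')) h2 h1
    · rintro q' ⟨s, q, h1, h2⟩
      exact h s q (some (true, q')) h2 h1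
    · rintro ⟨s, q, h1, h2⟩
      exact h s q none h2 h1

theorem outc_of_imp {l : List (Cell α)} (hl : l ≠ []) {s : Bool} {q : σ} {o : Port σ}
    (h : ∀ B C, beh M l B C → memIn B C s q → memOut B C o) : Outc M l s q o := by
  have := h {p | (p = some (true, q) ∧ s = true) ∨ (p = none ∧ Outc M l s q none) ∨
      ∃ q', p = some (false, q') ∧ Outc M l s q (some (false, q'))}
    {p | (p = some (false, q) ∧ s = false) ∨ (p = none ∧ Outc M l s q none) ∨
      ∃ q', p = some (true, q') ∧ Outc M l s q (some (true, q'))} ?_ ?_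
  · rcases o with _ | ⟨_ | _, q'⟩ <;> simpa [memOut] using this
  · rw [beh_char M hl]
    refine ⟨by simp, fun s' q' o' ho hin => ?_⟩
    have : s' = s ∧ q' = q := by
      cases s' <;> simp [memIn] at hin <;> simp [hin]
    obtain ⟨rfl, rfl⟩ := this
    rcases o' with _ | ⟨_ | _, q''⟩ <;> simpa [memOut] using ho
  · cases s <;> simp [memIn]

theorem outc_unique (hM : M.IsDeterministic) {l : List (Cell α)} {s : Bool} {q : σ}
    {o o' : Port σ} (h : Outc M l s q o) (h' : Outc M l s q o') : o = o' := by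
  have hu : Relator.RightUnique (Nx M l) := by
    rintro x y z ⟨q1, i1, a1, rfl, h1, g1⟩ ⟨q2, i2, a2, e, h2, g2⟩
    simp only [Option.some.injEq, Prod.mk.injEq, Nat.add_right_cancel_iff] at e
    obtain ⟨rfl, rfl⟩ := e
    rw [h1, Option.some.injEq] at h2
    subst h2
    rcases g1 with ⟨k1, rfl⟩ | ⟨k1, q', m, hm, rfl⟩ <;>
      rcases g2 with ⟨k2, rfl⟩ | ⟨k2, q'', m', hm', rfl⟩
    · rfl
    · exact absurd k1 k2
    · exact absurd k2 k1
    · have := hM q1 a1 hm hm'
      simp only [Prod.mk.injEq] at this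
      rw [this.1, this.2]
  have hterm : ∀ (o : Port σ) y, Relation.ReflTransGen (Nx M l) (outN l.length o) y →
      y = outN l.length o := by
    intro o y hy
    rcases hy.cases_head with h | ⟨c, ⟨q1, i, a, e, ha, -⟩, -⟩
    · exact h.symm
    · exfalso
      have hi : i < l.length := (List.getElem?_eq_some_iff.mp ha).1
      rcases o with _ | ⟨_ | _, q'⟩ <;> simp [outN] at e
      omega
  have hinj : ∀ o o' : Port σ, outN l.length o = outN l.length o' → o = o' := by
    rintro (_ | ⟨_ | _, q1⟩) (_ | ⟨_ | _, q2⟩) <;> simp [outN]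
  rcases Relation.ReflTransGen.total_of_right_unique hu h h' with k | k
  · exact (hinj _ _ (hterm _ _ k)).symm
  · exact hinj _ _ (hterm _ _ k)

theorem det_base (hM : M.IsDeterministic) {l l' : List (Cell α)} (hl : l ≠ []) (hl' : l' ≠ [])
    (hu : Under (beh M l') (beh M l)) (h : ∀ A D, beh M l A D → beh M l' A D) :
    ∀ A D, beh M l' A D → beh M l A D := by
  intro A D hAD
  rw [beh_char M hl'] at hAD
  rw [beh_char M hl]
  refine ⟨hAD.1, fun s q o ho hin => ?_⟩
  by_cases hex : ∃ o', Outc M l' s q o'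
  · obtain ⟨o', ho'⟩ := hex
    have : Outc M l s q o' := outc_of_imp M hl fun B C hBC hin' =>
      ((beh_char M hl' B C).mp (h B C hBC)).2 s q o' ho' hin'
    rw [outc_unique M hM ho this]
    exact hAD.2 s q o' ho' hin
  · exfalso
    push Not at hex
    cases s with
    | true =>
      have h1 : beh M l' {some (true, q)} ∅ := by
        rw [beh_char M hl']
        refine ⟨by simp, fun s' q' o' ho' hin' => ?_⟩
        cases s' <;> simp [memIn] at hin'
        subst hin'
        exact absurd ho' (hex o')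
      have h2 : beh M l {some (true, q)} ∅ := join_l hu h1 (lat_beh M l).empty
      have h3 := ((beh_char M hl _ _).mp h2).2 true q o ho (by simp [memIn])
      rcases o with _ | ⟨_ | _, q'⟩ <;> simp [memOut] at h3
    | false =>
      have h1 : beh M l' ∅ {some (false, q)} := by
        rw [beh_char M hl']
        refine ⟨by simp, fun s' q' o' ho' hin' => ?_⟩
        cases s' <;> simp [memIn] at hin'
        subst hin'
        exact absurd ho' (hex o')
      have h2 : beh M l ∅ {some (false, q)} := join_r hu (lat_beh M l).empty h1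
      have h3 := ((beh_char M hl _ _).mp h2).2 false q o ho (by simp [memIn])
      rcases o with _ | ⟨_ | _, q'⟩ <;> simp [memOut] at h3

theorem wordRel_append {h : ℕ} (u v : List (Fin h → Fin h → Bool)) (a c : Fin h) :
    wordRel (u ++ v) a c ↔ ∃ b, wordRel u a b ∧ wordRel v b c := by
  induction u generalizing a with
  | nil => simp [wordRel]
  | cons R u ih =>
    simp only [List.cons_append, wordRel, ih]
    constructor
    · rintro ⟨b, h1, d, h2, h3⟩; exact ⟨d, ⟨b, h1, h2⟩, h3⟩
    · rintro ⟨d, ⟨b, h1, h2⟩, h3⟩; exact ⟨b, h1, d, h2, h3⟩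

theorem wordRel_of_live {h : ℕ} {w w' : List (Fin h → Fin h → Bool)}
    (H : ∀ u v, u ++ w ++ v ∈ liveness h → u ++ w' ++ v ∈ liveness h) {a b : Fin h}
    (hab : wordRel w a b) : wordRel w' a b := by
  have := H [fun x y => decide (x = a ∧ y = a)] [fun x y => decide (x = b ∧ y = b)]
    ⟨a, b, by
      rw [wordRel_append]
      refine ⟨b, ?_, b, by simp, rfl⟩
      rw [wordRel_append]
      exact ⟨a, ⟨a, by simp, rfl⟩, hab⟩⟩
  obtain ⟨x, y, hxy⟩ := this
  rw [wordRel_append] at hxy
  obtain ⟨d, h1, e, h2, -⟩ := hxy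
  rw [wordRel_append] at h1
  obtain ⟨c, ⟨c', h3, h4⟩, h5⟩ := h1
  simp only [decide_eq_true_eq] at h2 h3
  have h4' : c' = c := h4
  rw [← h3.2, ← h2.1, h4']
  exact h5

/-- The representation defined by an automaton. -/
theorem bound_of_auto {h : ℕ} [Fintype σ] (M : TwoWayNFA (Fin h → Fin h → Bool) σ)
    (hwd : ∀ w w', wbeh M w = wbeh M w' → ∀ a b, wordRel w a b → wordRel w' a b)
    (hb : ∀ w w', w ≠ [] → w' ≠ [] → Under (wbeh M w') (wbeh M w) →
      (∀ A D, wbeh M w A D → wbeh M w' A D) → ∀ a b, wordRel w a b → wordRel w' a b)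
    (k : ℕ) (hk : 2 + 31 * k ≤ h) : 2 ^ k ≤ 2 * Fintype.card σ + 1 := by
  classical
  have hφ : ∀ w, (fun a b => ∃ w', wbeh M w = wbeh M w' ∧ wordRel w' a b) = wordRel w := by
    intro w
    funext a b
    exact propext ⟨fun ⟨w', h1, h2⟩ => hwd w' w h1.symm a b h2, fun h1 => ⟨w, rfl, h1⟩⟩
  let ρ : Rep (Port σ) (Fin h) :=
    { N := {x | ∃ w, w ≠ [] ∧ x = wbeh M w}
      φ := fun x a b => ∃ w', x = wbeh M w' ∧ wordRel w' a b
      lat := by rintro x ⟨w, -, rfl⟩; exact lat_beh M _
      mul_mem := by
        rintro x ⟨w, hw, rfl⟩ y ⟨w', -, rfl⟩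
        exact ⟨w ++ w', by simp [hw], (wbeh_append M w w').symm⟩
      map_mul := by
        rintro x ⟨w, hw, rfl⟩ y ⟨w', -, rfl⟩
        rw [← wbeh_append, hφ, hφ, hφ]
        exact Rl.ext' fun a b => wordRel_append w w' a b
      surj := by
        intro X
        refine ⟨_, ⟨[fun a b => decide (X a b)], by simp, rfl⟩, ?_⟩
        rw [hφ]
        apply Rl.ext'
        intro a b
        simp [wordRel]
      base := by
        rintro t ⟨w', hw', rfl⟩ x ⟨w, hw, rfl⟩ - h1 h2 a b hab
        obtain ⟨w1, e1, e2⟩ := hab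
        exact ⟨w', rfl, hb w w' hw hw' h1 h2 a b (hwd w1 w e1.symm a b e2)⟩ }
  have := ρ.bound k (by simpa using hk)
  simpa [Nat.card_eq_fintype_card] using this

theorem bound_compl {h : ℕ} [Fintype σ] (M : TwoWayNFA (Fin h → Fin h → Bool) σ)
    (hM : M.language = (liveness h)ᶜ) (k : ℕ) (hk : 2 + 31 * k ≤ h) :
    2 ^ k ≤ 2 * Fintype.card σ + 1 := by
  have hacc : ∀ w, M.Accepts w ↔ ¬ w ∈ liveness h := fun w => by
    have : w ∈ M.language ↔ w ∈ (liveness h)ᶜ := by rw [hM]
    exact this
  have key : ∀ w w', (∀ A D, wbeh M w A D → wbeh M w' A D) →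
      ∀ a b, wordRel w a b → wordRel w' a b := by
    intro w w' H a b
    apply wordRel_of_live
    intro u v hl
    by_contra hn
    exact (hacc _).mp (accepts_mono M H u v ((hacc _).mpr hn)) hl
  exact bound_of_auto M (fun w w' H => key w w' (by rw [H]; exact fun _ _ => id))
    (fun w w' _ _ _ H => key w w' H) k hk

theorem bound_det {h : ℕ} [Fintype σ] (M : TwoWayNFA (Fin h → Fin h → Bool) σ)
    (hd : M.IsDeterministic) (hM : M.language = liveness h) (k : ℕ) (hk : 2 + 31 * k ≤ h) :
    2 ^ k ≤ 2 * Fintype.card σ + 1 := by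
  have hacc : ∀ w, M.Accepts w ↔ w ∈ liveness h := fun w => by
    have : w ∈ M.language ↔ w ∈ liveness h := by rw [hM]
    exact this
  have key : ∀ w w', (∀ A D, wbeh M w' A D → wbeh M w A D) →
      ∀ a b, wordRel w a b → wordRel w' a b := by
    intro w w' H a b
    apply wordRel_of_live
    intro u v hl
    exact (hacc _).mp (accepts_mono M H u v ((hacc _).mpr hl))
  exact bound_of_auto M (fun w w' H => key w w' (by rw [H]; exact fun _ _ => id))
    (fun w w' hw hw' hu H => key w w'
      (det_base M hd (by simpa using hw) (by simpa using hw') hu H)) k hk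

end Crest.Agent.R294
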