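import Mathlib

/-!
Binary relations as a monoid, relations on `Set P` closed under unions and intersections
(the behaviours of two-way automata, seen through their closed sets of ports), and the basic
decomposition lemmas for implications between ports.
-/

set_option autoImplicit false
universe u

namespace Crest.Agent.R294

/-- Binary relations with composition as product. -/
def Rl (α : Type u) : Type u := α → α → Prop

namespace Rl
variable {α : Type u}

instance : Monoid (Rl α) where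
  mul x y := fun a c => ∃ b, x a b ∧ y b c
  one := fun a b => a = b
  mul_assoc x y z := by
    funext a d
    apply propext
    constructor
    · rintro ⟨c, ⟨b, h1, h2⟩, h3⟩
      exact ⟨b, h1, c, h2, h3⟩
    · rintro ⟨b, h1, c, h2, h3⟩
      exact ⟨c, ⟨b, h1, h2⟩, h3⟩
  one_mul x := by
    funext a c
    apply propext
    constructor
    · rintro ⟨b, h1, h2⟩
      have h1' : a = b := h1
      rw [h1']; exact h2
    · intro h
      exact ⟨a, rfl, h⟩
  mul_one x := by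
    funext a c
    apply propext
    constructor
    · rintro ⟨b, h1, h2⟩
      have h2' : b = c := h2
      rw [← h2']; exact h1
    · intro h
      exact ⟨c, h, rfl⟩

theorem mul_apply (x y : Rl α) (a c : α) : (x * y) a c ↔ ∃ b, x a b ∧ y b c := Iff.rfl
theorem one_apply (a b : α) : (1 : Rl α) a b ↔ a = b := Iff.rfl

theorem ext' {x y : Rl α} (h : ∀ a b, x a b ↔ y a b) : x = y := by
  funext a b; exact propext (h a b)

instance [Finite α] : Finite (Rl α) := inferInstanceAs (Finite (α → α → Prop))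

/-- The converse relation. -/
def rev (x : Rl α) : Rl α := fun b a => x a b

@[simp] theorem rev_rev (x : Rl α) : x.rev.rev = x := rfl
theorem rev_mul (x y : Rl α) : (x * y).rev = y.rev * x.rev := by
  apply ext'; intro c a
  constructor
  · rintro ⟨b, h1, h2⟩; exact ⟨b, h2, h1⟩
  · rintro ⟨b, h1, h2⟩; exact ⟨b, h2, h1⟩

def dom (x : Rl α) : Set α := {a | ∃ b, x a b}
def im (x : Rl α) : Set α := {b | ∃ a, x a b}

@[simp] theorem dom_rev (x : Rl α) : x.rev.dom = x.im := rfl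
@[simp] theorem im_rev (x : Rl α) : x.rev.im = x.dom := rfl

theorem dom_mul_subset (x y : Rl α) : (x * y).dom ⊆ x.dom := by
  rintro a ⟨c, b, h1, _⟩; exact ⟨b, h1⟩
theorem im_mul_subset (x y : Rl α) : (x * y).im ⊆ y.im := by
  rintro c ⟨a, b, _, h2⟩; exact ⟨b, h2⟩

end Rl

/-- In a finite monoid some positive power of an element is idempotent. -/
theorem exists_idem_pow {M : Type u} [Monoid M] [Finite M] (x : M) :
    ∃ n, 1 ≤ n ∧ x ^ n * x ^ n = x ^ n := by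
  obtain ⟨a, b, hab, h⟩ := Finite.exists_ne_map_eq_of_infinite (fun n : ℕ => x ^ n)
  wlog hlt : a < b generalizing a b
  · exact this b a hab.symm h.symm (by omega)
  obtain ⟨p, rfl⟩ : ∃ p, b = a + (p + 1) := ⟨b - a - 1, by omega⟩
  have key : ∀ j, x ^ (a + (p + 1) * j) = x ^ a := by
    intro j
    induction j with
    | zero => simp
    | succ j ih =>
      have : a + (p + 1) * (j + 1) = (a + (p + 1)) + (p + 1) * j := by ring
      rw [this, pow_add, ← h, ← pow_add, ih]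
  refine ⟨(p + 1) * (a + 1), Nat.one_le_iff_ne_zero.mpr (by positivity), ?_⟩
  obtain ⟨c, hc⟩ : ∃ c, (p + 1) * (a + 1) = a + c := ⟨(p + 1) * (a + 1) - a, by
    have : a + 1 ≤ (p + 1) * (a + 1) := Nat.le_mul_of_pos_left _ (by omega)
    omega⟩
  rw [← pow_add]
  have : (p + 1) * (a + 1) + (p + 1) * (a + 1) = (a + (p + 1) * (a + 1)) + c := by
    omega
  rw [this, pow_add, key, ← pow_add, ← hc]

variable {P : Type u}

/-- A family of sets closed under arbitrary unions and intersections. -/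
structure LatS (I : Set (Set P)) : Prop where
  un : ∀ {ι : Type u} (B : ι → Set P), (∀ i, B i ∈ I) → (⋃ i, B i) ∈ I
  int : ∀ {ι : Type u} (B : ι → Set P), (∀ i, B i ∈ I) → (⋂ i, B i) ∈ I

/-- A relation between sets closed under arbitrary unions and intersections. -/
structure Lat (x : Rl (Set P)) : Prop where
  un : ∀ {ι : Type u} (B C : ι → Set P), (∀ i, x (B i) (C i)) → x (⋃ i, B i) (⋃ i, C i)
  int : ∀ {ι : Type u} (B C : ι → Set P), (∀ i, x (B i) (C i)) → x (⋂ i, B i) (⋂ i, C i)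

theorem LatS.univ : LatS (Set.univ : Set (Set P)) :=
  ⟨fun _ _ => Set.mem_univ _, fun _ _ => Set.mem_univ _⟩

theorem iUnion_bool' (A B : Set P) :
    (⋃ i : ULift.{u} Bool, (if i.down then A else B)) = A ∪ B := by
  ext a
  simp only [Set.mem_iUnion, Set.mem_union]
  constructor
  · rintro ⟨⟨i⟩, h⟩
    cases i <;> simp_all
  · rintro (h | h)
    · exact ⟨⟨true⟩, by simpa using h⟩
    · exact ⟨⟨false⟩, by simpa using h⟩

theorem iInter_bool' (A B : Set P) :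
    (⋂ i : ULift.{u} Bool, (if i.down then A else B)) = A ∩ B := by
  ext a
  simp only [Set.mem_iInter, Set.mem_inter_iff]
  constructor
  · intro h
    exact ⟨by simpa using h ⟨true⟩, by simpa using h ⟨false⟩⟩
  · rintro ⟨h1, h2⟩ ⟨i⟩
    cases i <;> simp_all

theorem LatS.union {I : Set (Set P)} (h : LatS I) {A B : Set P} (hA : A ∈ I) (hB : B ∈ I) :
    A ∪ B ∈ I := by
  rw [← iUnion_bool']
  apply h.un
  rintro ⟨i⟩
  cases i <;> simpa

theorem LatS.inter {I : Set (Set P)} (h : LatS I) {A B : Set P} (hA : A ∈ I) (hB : B ∈ I) :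
    A ∩ B ∈ I := by
  rw [← iInter_bool']
  apply h.int
  rintro ⟨i⟩
  cases i <;> simpa

theorem Lat.union {x : Rl (Set P)} (h : Lat x) {A B C D : Set P} (h1 : x A B) (h2 : x C D) :
    x (A ∪ C) (B ∪ D) := by
  rw [← iUnion_bool', ← iUnion_bool']
  apply h.un
  rintro ⟨i⟩
  cases i <;> simpa

theorem Lat.inter {x : Rl (Set P)} (h : Lat x) {A B C D : Set P} (h1 : x A B) (h2 : x C D) :
    x (A ∩ C) (B ∩ D) := by
  rw [← iInter_bool', ← iInter_bool']
  apply h.int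
  rintro ⟨i⟩
  cases i <;> simpa

theorem Lat.empty {x : Rl (Set P)} (h : Lat x) : x ∅ ∅ := by
  have := h.un (ι := PEmpty) (fun _ => ∅) (fun _ => ∅) (fun i => i.elim)
  simpa using this

theorem Lat.univ {x : Rl (Set P)} (h : Lat x) : x Set.univ Set.univ := by
  have := h.int (ι := PEmpty) (fun _ => ∅) (fun _ => ∅) (fun i => i.elim)
  simpa using this

theorem Lat.rev {x : Rl (Set P)} (h : Lat x) : Lat x.rev :=
  ⟨fun B C hh => h.un C B hh, fun B C hh => h.int C B hh⟩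

theorem Lat.mul {x y : Rl (Set P)} (hx : Lat x) (hy : Lat y) : Lat (x * y) := by
  constructor
  · intro ι B C hh
    choose D h1 h2 using hh
    exact ⟨_, hx.un _ _ h1, hy.un _ _ h2⟩
  · intro ι B C hh
    choose D h1 h2 using hh
    exact ⟨_, hx.int _ _ h1, hy.int _ _ h2⟩

theorem Lat.dom {x : Rl (Set P)} (hx : Lat x) : LatS x.dom := by
  constructor
  · intro ι B hh
    choose D h1 using hh
    exact ⟨_, hx.un _ _ h1⟩
  · intro ι B hh
    choose D h1 using hh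
    exact ⟨_, hx.int _ _ h1⟩

theorem Lat.im {x : Rl (Set P)} (hx : Lat x) : LatS x.im := hx.rev.dom

/-- `p` on the left of `x` implies `q` on the right, in the contexts `I` and `D`. -/
def Rf (I : Set (Set P)) (x : Rl (Set P)) (D : Set (Set P)) (p q : P) : Prop :=
  ∀ B C, B ∈ I → C ∈ D → x B C → p ∈ B → q ∈ C

theorem Rf.mono {I I' D D' : Set (Set P)} {x : Rl (Set P)} {p q : P} (h : Rf I x D p q)
    (hI : I' ⊆ I) (hD : D' ⊆ D) : Rf I' x D' p q :=
  fun B C hB hC hx hp => h B C (hI hB) (hD hC) hx hp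

/-- Decomposition at the last visit of the middle cut. -/
theorem Rf.last {I D : Set (Set P)} {x y : Rl (Set P)} (hI : LatS I) (hD : LatS D)
    (hx : Lat x) (hy : Lat y) {p r : P} (h : Rf I (x * y) D p r) :
    ∃ q, Rf I x {C | ∃ E ∈ D, y C E} p q ∧ Rf Set.univ y D q r := by
  by_contra hcon
  push Not at hcon
  let T := {z : Set P × Set P × Set P //
    z.1 ∈ I ∧ x z.1 z.2.1 ∧ y z.2.1 z.2.2 ∧ z.2.2 ∈ D ∧ p ∈ z.1}
  have h1 : (⋂ z : T, z.1.1) ∈ I := hI.int _ fun z => z.2.1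
  have h2 : x (⋂ z : T, z.1.1) (⋂ z : T, z.1.2.1) := hx.int _ _ fun z => z.2.2.1
  have h3 : y (⋂ z : T, z.1.2.1) (⋂ z : T, z.1.2.2) := hy.int _ _ fun z => z.2.2.2.1
  have h4 : (⋂ z : T, z.1.2.2) ∈ D := hD.int _ fun z => z.2.2.2.2.1
  have h5 : p ∈ ⋂ z : T, z.1.1 := Set.mem_iInter.mpr fun z => z.2.2.2.2.2
  have h6 : ∀ q : (⋂ z : T, z.1.2.1 : Set P), ∃ C E, E ∈ D ∧ y C E ∧ q.1 ∈ C ∧ r ∉ E := by
    intro q
    have := hcon q.1 (by
      rintro B C hB ⟨E, hE, hCE⟩ hBC hp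
      exact Set.mem_iInter.mp q.2 ⟨(B, C, E), hB, hBC, hCE, hE, hp⟩)
    unfold Rf at this
    push Not at this
    obtain ⟨C, E, -, a, b, c, d⟩ := this
    exact ⟨C, E, a, b, c, d⟩
  choose C E g1 g2 g3 g4 using h6
  have h7 := hy.inter h3 (hy.un _ _ g2)
  have h8 : (⋂ z : T, z.1.2.1) ∩ (⋃ q, C q) = ⋂ z : T, z.1.2.1 := by
    apply Set.inter_eq_left.mpr
    intro q hq
    exact Set.mem_iUnion.mpr ⟨⟨q, hq⟩, g3 _⟩
  rw [h8] at h7
  have h9 := h _ _ h1 (hD.inter h4 (hD.un _ g1)) ⟨_, h2, h7⟩ h5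
  obtain ⟨q, hq⟩ := Set.mem_iUnion.mp h9.2
  exact g4 q hq

/-- Decomposition at the first visit of the middle cut. -/
theorem Rf.first {I D : Set (Set P)} {x y : Rl (Set P)} (hI : LatS I) (hD : LatS D)
    (hx : Lat x) (hy : Lat y) {p r : P} (h : Rf I (x * y) D p r) :
    ∃ q, Rf I x Set.univ p q ∧ Rf {C | ∃ B ∈ I, x B C} y D q r := by
  by_contra hcon
  push Not at hcon
  let T := {z : Set P × Set P × Set P //
    z.1 ∈ I ∧ x z.1 z.2.1 ∧ y z.2.1 z.2.2 ∧ z.2.2 ∈ D ∧ r ∉ z.2.2}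
  have h1 : (⋃ z : T, z.1.1) ∈ I := hI.un _ fun z => z.2.1
  have h2 : x (⋃ z : T, z.1.1) (⋃ z : T, z.1.2.1) := hx.un _ _ fun z => z.2.2.1
  have h3 : y (⋃ z : T, z.1.2.1) (⋃ z : T, z.1.2.2) := hy.un _ _ fun z => z.2.2.2.1
  have h4 : (⋃ z : T, z.1.2.2) ∈ D := hD.un _ fun z => z.2.2.2.2.1
  have h5 : r ∉ ⋃ z : T, z.1.2.2 := by
    intro hr
    obtain ⟨z, hz⟩ := Set.mem_iUnion.mp hr
    exact z.2.2.2.2.2 hz
  let S := {z : Set P × Set P // z.1 ∈ I ∧ x z.1 z.2 ∧ p ∈ z.1}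
  have g1 : (⋂ z : S, z.1.1) ∈ I := hI.int _ fun z => z.2.1
  have g2 : x (⋂ z : S, z.1.1) (⋂ z : S, z.1.2) := hx.int _ _ fun z => z.2.2.1
  have g3 : p ∈ ⋂ z : S, z.1.1 := Set.mem_iInter.mpr fun z => z.2.2.2
  have g4 : (⋂ z : S, z.1.2) ⊆ ⋃ z : T, z.1.2.1 := by
    intro q hq
    have := hcon q (by
      rintro B C hB - hBC hp
      exact Set.mem_iInter.mp hq ⟨(B, C), hB, hBC, hp⟩)
    unfold Rf at this
    push Not at this
    obtain ⟨C, E, ⟨B, hB, hBC⟩, a, b, c, d⟩ := this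
    exact Set.mem_iUnion.mpr ⟨⟨(B, C, E), hB, hBC, b, a, d⟩, c⟩
  have g5 := hx.union g2 h2
  rw [Set.union_eq_right.mpr g4] at g5
  exact h5 (h _ _ (hI.union g1 h1) h4 ⟨_, g5, h3⟩ (Or.inl g3))

theorem Lat.half {y : Rl (Set P)} (hy : Lat y) {A D : Set P} (hA : A ∈ y.dom)
    (h : ∀ a b, Rf Set.univ y Set.univ a b → a ∈ A → b ∈ D) : ∃ E, E ⊆ D ∧ y A E := by
  have h1 : ∀ (a : A) (b : (Dᶜ : Set P)), ∃ B C, y B C ∧ a.1 ∈ B ∧ b.1 ∉ C := by
    intro a b
    by_contra hc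
    push Not at hc
    exact b.2 (h a.1 b.1 (fun B C _ _ hy ha => hc B C hy ha) a.2)
  choose B C g1 g2 g3 using h1
  have h2 : y (⋃ a, ⋂ b, B a b) (⋃ a, ⋂ b, C a b) :=
    hy.un _ _ fun a => hy.int _ _ fun b => g1 a b
  obtain ⟨D1, hD1⟩ := hA
  have h3 := hy.inter hD1 h2
  have h4 : A ∩ (⋃ a, ⋂ b, B a b) = A := by
    apply Set.inter_eq_left.mpr
    intro a ha
    exact Set.mem_iUnion.mpr ⟨⟨a, ha⟩, Set.mem_iInter.mpr fun b => g2 _ b⟩
  rw [h4] at h3
  refine ⟨_, ?_, h3⟩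
  rintro b ⟨-, hb⟩
  by_contra hbD
  obtain ⟨a, ha⟩ := Set.mem_iUnion.mp hb
  exact g3 a ⟨b, hbD⟩ (Set.mem_iInter.mp ha ⟨b, hbD⟩)

/-- A pair closed under all implications of `y` belongs to `y`. -/
theorem Lat.mem_of_imp {y : Rl (Set P)} (hy : Lat y) {A D : Set P} (hA : A ∈ y.dom)
    (hD : D ∈ y.im) (h1 : ∀ a b, Rf Set.univ y Set.univ a b → a ∈ A → b ∈ D)
    (h2 : ∀ b a, Rf Set.univ y.rev Set.univ b a → b ∈ D → a ∈ A) : y A D := by
  obtain ⟨E, hE, hAE⟩ := hy.half hA h1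
  obtain ⟨G, hG, hGD⟩ := hy.rev.half (A := D) hD h2
  have := hy.union hAE hGD
  rwa [Set.union_eq_left.mpr hG, Set.union_eq_right.mpr hE] at this

theorem exists_refl_between {X : Type u} [Finite X] (ρ : X → X → Prop)
    (htr : ∀ a b c, ρ a b → ρ b c → ρ a c) (hd : ∀ a c, ρ a c → ∃ b, ρ a b ∧ ρ b c)
    {p q : X} (h : ρ p q) : ∃ c, ρ p c ∧ ρ c c ∧ ρ c q := by
  by_contra hcon
  push Not at hcon
  let Y := {y : X // ρ p y ∧ ρ y q}
  let r : Y → Y → Prop := fun a b => ρ a.1 b.1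
  have : IsTrans Y r := ⟨fun a b c => htr _ _ _⟩
  have : Std.Irrefl r := ⟨fun a ha => hcon a.1 a.2.1 ha a.2.2⟩
  have wf : WellFounded r := Finite.wellFounded_of_trans_of_irrefl r
  obtain ⟨b, hb1, hb2⟩ := hd _ _ h
  obtain ⟨m, -, hm⟩ := wf.has_min Set.univ ⟨⟨b, hb1, hb2⟩, trivial⟩
  obtain ⟨b', h1, h2⟩ := hd _ _ m.2.1
  exact hm ⟨b', h1, htr _ _ _ h2 m.2.2⟩ trivial h2

/-- Forward implication through `x` in the context `t`. -/
def fwd (t x : Rl (Set P)) (p q : P) : Prop := Rf t.im x t.dom p q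

/-- Lax multiplicativity. -/
theorem fwd.mul {t x y : Rl (Set P)} {p q r : P} (hx : x.im ⊆ t.im) (hy : y.dom ⊆ t.dom)
    (h1 : fwd t x p q) (h2 : fwd t y q r) : fwd t (x * y) p r := by
  rintro B D hB hD ⟨C, hBC, hCD⟩ hp
  exact h2 C D (hx ⟨B, hBC⟩) hD hCD (h1 B C hB (hy ⟨D, hCD⟩) hBC hp)

theorem fwd.trans {t : Rl (Set P)} (ht : t * t = t) {p q r : P}
    (h1 : fwd t t p q) (h2 : fwd t t q r) : fwd t t p r := by
  have := fwd.mul subset_rfl subset_rfl h1 h2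
  rwa [ht] at this

theorem dom_of_idem {t : Rl (Set P)} (ht : t * t = t) :
    {C | ∃ E ∈ t.dom, t C E} = t.dom := by
  ext C
  constructor
  · rintro ⟨E, -, h⟩; exact ⟨E, h⟩
  · rintro ⟨E, h⟩
    rw [← ht] at h
    obtain ⟨B, h1, h2⟩ := h
    exact ⟨B, ⟨E, h2⟩, h1⟩

theorem fwd.dense {t : Rl (Set P)} (hl : Lat t) (ht : t * t = t) {p r : P}
    (h : fwd t t p r) : ∃ q, fwd t t p q ∧ fwd t t q r := by
  have h' : Rf t.im (t * t) t.dom p r := by rw [ht]; exact h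
  obtain ⟨q, h1, h2⟩ := h'.last hl.im hl.dom hl hl
  rw [dom_of_idem ht] at h1
  exact ⟨q, h1, h2.mono (Set.subset_univ _) subset_rfl⟩

/-- A crossing of an idempotent passes through a fixed port. -/
theorem factor [Finite P] {t : Rl (Set P)} (hl : Lat t) (ht : t * t = t) {a b : P}
    (h : Rf Set.univ t Set.univ a b) :
    ∃ c, fwd t t c c ∧ Rf Set.univ t t.dom a c ∧ Rf t.im t Set.univ c b := by
  have h' : Rf Set.univ (t * t * t) Set.univ a b := by rw [ht, ht]; exact h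
  obtain ⟨q, h1, h2⟩ := h'.last LatS.univ LatS.univ (hl.mul hl) hl
  have e1 : {C | ∃ E ∈ (Set.univ : Set (Set P)), t C E} = t.dom := by
    ext C; simp [Rl.dom]
  have e2 : {C | ∃ E ∈ (Set.univ : Set (Set P)), t E C} = t.im := by
    ext C; simp [Rl.im]
  rw [e1] at h1
  obtain ⟨p, h3, h4⟩ := h1.first LatS.univ hl.dom hl hl
  rw [e2] at h4
  obtain ⟨c, c1, c2, c3⟩ := exists_refl_between (fwd t t) (fun _ _ _ => fwd.trans ht)
    (fun _ _ => fwd.dense hl ht) (p := p) (q := q) h4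
  refine ⟨c, c2, ?_, ?_⟩
  · intro A C _ hC hAC ha
    rw [← ht] at hAC
    obtain ⟨B, hAB, hBC⟩ := hAC
    exact c1 B C ⟨A, hAB⟩ hC hBC (h3 A B trivial trivial hAB ha)
  · intro A C hA _ hAC ha
    rw [← ht] at hAC
    obtain ⟨B, hAB, hBC⟩ := hAC
    exact h2 B C trivial trivial hBC (c3 A B hA ⟨C, hBC⟩ hAB ha)

/-- If `x` fixes the port `c`, crossings of `t` through `c` are crossings of `x`. -/
theorem pass {t x : Rl (Set P)} (hl : t * x = x) (hr : x * t = x) {a b c : P}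
    (hc : fwd t x c c) (h1 : Rf Set.univ t t.dom a c) (h2 : Rf t.im t Set.univ c b) :
    Rf Set.univ x Set.univ a b := by
  intro A D _ _ hAD ha
  have hAD' : (t * x * t) A D := by rw [hl, hr]; exact hAD
  obtain ⟨C, ⟨B, hAB, hBC⟩, hCD⟩ := hAD'
  have hB : B ∈ t.dom := by
    have : B ∈ (t * x).dom := by rw [hl]; exact ⟨C, hBC⟩
    exact Rl.dom_mul_subset _ _ this
  have hC : C ∈ t.im := by
    have : C ∈ (x * t).im := by rw [hr]; exact ⟨B, hBC⟩
    exact Rl.im_mul_subset _ _ this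
  exact h2 C D hC trivial hCD (hc B C ⟨A, hAB⟩ ⟨D, hCD⟩ hBC (h1 A B trivial hB hAB ha))

end Crest.Agent.R294
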