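import Crest.Agent.R294.Rep

/-!
The doubling argument: `32` conjugates of one edge generate a chain of `256` idempotents.
-/

set_option autoImplicit false
universe u

namespace Crest.Agent.R294

variable {P : Type u}

theorem ncard_biUnion_le' {X : Type u} [Finite X] {ι : Type} (s : Finset ι) (K : ι → Set X)
    (d : ℕ) (h : ∀ i, (K i).ncard ≤ d) : (⋃ i ∈ s, K i).ncard ≤ s.card * d := by
  classical
  induction s using Finset.induction_on with
  | empty => simp
  | insert a s ha ih =>
    rw [Finset.set_biUnion_insert, Finset.card_insert_of_notMem ha]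
    have := Set.ncard_union_le (K a) (⋃ i ∈ s, K i)
    have := h a
    nlinarith

section gadget
variable {S : Type} (A B : Fin 16 → S) (c : S)

/-- The identity off `c` together with a set of edges from `A` to `B`. -/
def TT (E : Finset (Fin 16 × Fin 16)) : Rl S :=
  fun a b => (a = b ∧ a ≠ c) ∨ ∃ e ∈ E, a = A e.1 ∧ b = B e.2

variable {A B c}

theorem TT_mul (hAB : ∀ i j, A i ≠ B j) (hA : ∀ i, A i ≠ c) (hB : ∀ i, B i ≠ c)
    (E E' : Finset (Fin 16 × Fin 16)) : TT A B c E * TT A B c E' = TT A B c (E ∪ E') := by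
  apply Rl.ext'
  intro x z
  constructor
  · rintro ⟨y, ⟨rfl, h1⟩ | ⟨e, he, rfl, rfl⟩, ⟨rfl, h2⟩ | ⟨e', he', h3, rfl⟩⟩
    · exact Or.inl ⟨rfl, h1⟩
    · exact Or.inr ⟨e', Finset.mem_union_right _ he', h3, rfl⟩
    · exact Or.inr ⟨e, Finset.mem_union_left _ he, rfl, rfl⟩
    · exact absurd h3.symm (hAB _ _)
  · rintro (⟨rfl, h1⟩ | ⟨e, he, rfl, rfl⟩)
    · exact ⟨x, Or.inl ⟨rfl, h1⟩, Or.inl ⟨rfl, h1⟩⟩
    · rcases Finset.mem_union.mp he with he | he
      · exact ⟨_, Or.inr ⟨e, he, rfl, rfl⟩, Or.inl ⟨rfl, hB _⟩⟩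
      · exact ⟨_, Or.inl ⟨rfl, hA _⟩, Or.inr ⟨e, he, rfl, rfl⟩⟩

theorem TT_edge (hA : ∀ i, A i ≠ c) (hB : ∀ i, B i ≠ c) (i j : Fin 16) :
    TT A B c ∅ * (edge (A i) c * edge c (B j)) * TT A B c ∅ = TT A B c {(i, j)} := by
  apply Rl.ext'
  intro x z
  constructor
  · rintro ⟨w, ⟨y, ⟨rfl, h1⟩ | ⟨e, he, -⟩, v, h2, h3⟩, ⟨rfl, h4⟩ | ⟨e, he, -⟩⟩
    · rcases h2 with rfl | ⟨rfl, rfl⟩
      · rcases h3 with rfl | ⟨h5, -⟩
        · exact Or.inl ⟨rfl, h1⟩
        · exact absurd h5 h1
      · rcases h3 with h5 | ⟨-, rfl⟩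
        · exact absurd h5.symm h4
        · exact Or.inr ⟨(i, j), by simp, rfl, rfl⟩
    · simp at he
    · simp at he
    · simp at he
  · rintro (⟨rfl, h1⟩ | ⟨e, he, rfl, rfl⟩)
    · exact ⟨x, ⟨x, Or.inl ⟨rfl, h1⟩, x, Or.inl rfl, Or.inl rfl⟩, Or.inl ⟨rfl, h1⟩⟩
    · rw [Finset.mem_singleton] at he
      subst he
      exact ⟨B j, ⟨A i, Or.inl ⟨rfl, hA _⟩, c, Or.inr ⟨rfl, rfl⟩, Or.inr ⟨rfl, rfl⟩⟩,
        Or.inl ⟨rfl, hB _⟩⟩

end gadget

theorem main_bound [Finite P] (k : ℕ) : ∀ (S : Type) [Fintype S] (ρ : Rep P S)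
    (t u : Rl (Set P)) (a b : S), 2 + 31 * k ≤ Fintype.card S → ρ.Gen t → u ∈ ρ.N → Under t u →
    a ≠ b → ρ.φ u = edge a b → 2 ^ k ≤ del t u := by
  induction k with
  | zero =>
    intro S _ ρ t u a b _ ht hu htu hab hφ
    apply one_le_del (ρ.lat _ ht.mem) ht.idem htu
    intro h
    have := ρ.base t ht.mem u hu ht.idem htu h a b (by rw [hφ]; exact Or.inr ⟨rfl, rfl⟩)
    rw [ht.map] at this
    exact hab this
  | succ k ih =>
    intro S _ ρ t u a b hS ht hu htu hab hφ
    classical
    obtain ⟨j⟩ : Nonempty ((Fin 16 ⊕ Fin 16 ⊕ Unit) ↪ S) :=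
      Function.Embedding.nonempty_of_card_le (by simp; omega)
    let A : Fin 16 → S := fun i => j (.inl i)
    let B : Fin 16 → S := fun i => j (.inr (.inl i))
    let c : S := j (.inr (.inr ()))
    have hAB : ∀ i i', A i ≠ B i' := fun i i' h => by simpa using j.injective h
    have hA : ∀ i, A i ≠ c := fun i h => by simpa using j.injective h
    have hB : ∀ i, B i ≠ c := fun i h => by simpa using j.injective h
    have hAi : ∀ i i', A i = A i' → i = i' := fun i i' h => by simpa using j.injective h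
    have hBi : ∀ i i', B i = B i' → i = i' := fun i i' h => by simpa using j.injective h
    set d := del t u
    choose uA a1 a2 a3 a4 using fun i => ρ.exists_conj ht hu htu hab hφ (hA i)
    choose uB b1 b2 b3 b4 using fun i => ρ.exists_conj ht hu htu hab hφ (hB i).symm
    let uu : Fin 16 ⊕ Fin 16 → Rl (Set P) := Sum.elim uA uB
    let Z : Set P := ⋃ i ∈ (Finset.univ : Finset (Fin 16 ⊕ Fin 16)), {p | ¬ Good t (uu i) p}
    have hZ : ∀ p ∈ Z, p ∈ cls t p := by
      intro p hp
      simp only [Z, Set.mem_iUnion] at hp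
      obtain ⟨i, -, hi⟩ := hp
      exact mem_cls_of_not_good hi
    have hZc : (cls t '' Z).ncard ≤ 32 * d := by
      simp only [Z, Set.image_iUnion]
      have := ncard_biUnion_le' (Finset.univ : Finset (Fin 16 ⊕ Fin 16))
        (fun i => cls t '' {p | ¬ Good t (uu i) p}) d (by
          rintro (i | i)
          · exact a4 i
          · exact b4 i)
      simpa using this
    have hZg : ∀ p ∉ Z, ∀ i i', Good t (uA i * uB i') p := by
      intro p hp i i'
      simp only [Z, Set.mem_iUnion, not_exists] at hp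
      have h1 := hp (.inl i) (Finset.mem_univ _)
      have h2 := hp (.inr i') (Finset.mem_univ _)
      simp only [Set.mem_ofPred_eq, not_not] at h1 h2
      exact Good.mul (a2 i) (b2 i') h1 h2
    have hTT := TT_mul hAB hA hB
    obtain ⟨x0, hx0, hφ0⟩ := ρ.surj (TT A B c ∅)
    obtain ⟨m1, m2⟩ := ρ.mul3 ht.mem hx0 ht.mem
    rw [ht.map, one_mul, mul_one, hφ0] at m2
    obtain ⟨f, hf, hff, htf, hφf, -⟩ := ρ.exists_min m1 (Under.sand ht.idem _)
      (by rw [m2, hTT]; simp)
    rw [m2] at hφf
    have hlt := ρ.lat _ ht.mem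
    have hlf := ρ.lat _ hf
    let NN : Rl (Set P) → Prop := fun x => x ∈ ρ.N ∧ Under f x ∧
      (∀ p ∈ Prot Z f, fwd f x p p) ∧ (∀ p ∈ Prot Z f.rev, fwd f.rev x.rev p p)
    have nmul : ∀ x y, NN x → NN y → NN (x * y) := by
      intro x y hx hy
      refine ⟨ρ.mul_mem _ hx.1 _ hy.1, hx.2.1.mul hy.2.1, fun p hp => ?_, fun p hp => ?_⟩
      · exact fwd.mul hx.2.1.im hy.2.1.dom (hx.2.2.1 p hp) (hy.2.2.1 p hp)
      · rw [Rl.rev_mul]
        exact fwd.mul hy.2.1.rev.im hx.2.1.rev.dom (hy.2.2.2 p hp) (hx.2.2.2 p hp)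
    have npow : ∀ x n, NN x → NN (x ^ (n + 1)) := by
      intro x n hx
      induction n with
      | zero => simpa using hx
      | succ n ihn => rw [pow_succ]; exact nmul _ _ ihn hx
    have nf : NN f := ⟨hf, Under.self hff, fun p hp => hp.1, fun p hp => hp.1⟩
    have ne : ∀ i i', NN (f * (uA i * uB i') * f) := by
      intro i i'
      have hu' := (a2 i).mul (b2 i')
      refine ⟨(ρ.mul3 hf (ρ.mul_mem _ (a1 i) _ (b1 i')) hf).1, Under.sand hff _,
        fun p hp => ?_, fun p hp => ?_⟩
      · exact ctx hlt ht.idem hlf hff htf hu' hp.1 fun q hq => hZg q (hp.2 q hq) i i'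
      · rw [rev_sand]
        exact ctx hlt.rev (rev_idem ht.idem) hlf.rev (rev_idem hff) htf.rev hu'.rev hp.1
          fun q hq => (hZg q (hp.2 q hq) i i').rev
    have chain : ∀ E : Finset (Fin 16 × Fin 16), ∃ s, NN s ∧ s * s = s ∧ ρ.φ s = TT A B c E ∧
        E.card * 2 ^ k + 2 * pot (Prot Z f) (Prot Z f.rev) s
          ≤ 2 * pot (Prot Z f) (Prot Z f.rev) f := by
      intro E
      induction E using Finset.induction_on with
      | empty => exact ⟨f, nf, hff, hφf, by simp⟩
      | insert e E he ihE =>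
        obtain ⟨s, ns, hss, hφs, hle⟩ := ihE
        obtain ⟨i, i'⟩ := e
        have nx := nmul _ _ (nmul _ _ ns (ne i i')) ns
        have hφx : ρ.φ (s * (f * (uA i * uB i') * f) * s) = TT A B c (insert (i, i') E) := by
          rw [(ρ.mul3 ns.1 (ne i i').1 ns.1).2,
            (ρ.mul3 hf (ρ.mul_mem _ (a1 i) _ (b1 i')) hf).2, ρ.map_mul _ (a1 i) _ (b1 i'),
            a3, b3, hφf, TT_edge hA hB, hφs, hTT, hTT]
          congr 1
          ext e
          simp only [Finset.mem_union, Finset.mem_singleton, Finset.mem_insert]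
          tauto
        obtain ⟨n, n1, n2, n3⟩ := ρ.exists_idem nx.1 (by rw [hφx, hTT]; simp)
        have ns' := npow _ n nx
        have hss' : Under s ((s * (f * (uA i * uB i') * f) * s) ^ (n + 1)) :=
          (Under.sand hss _).pow n
        set s' := (s * (f * (uA i * uB i') * f) * s) ^ (n + 1)
        rw [hφx] at n3
        refine ⟨s', ns', n2, n3, ?_⟩
        have step := chain_step (ρ.lat _ ns.1) hss (ρ.lat _ n1) n2 hss'
          (Pr := Prot Z f) (Pr' := Prot Z f.rev)
          (fun p hp => Rf.mono (ns'.2.2.1 p hp) ns.2.1.im ns.2.1.dom)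
          (fun p hp => Rf.mono (ns'.2.2.2 p hp) ns.2.1.rev.im ns.2.1.rev.dom)
        let S' := {x : S // x ∉ Set.range j ∨ x = A i ∨ x = B i'}
        have hc' : ∀ x : S', x.1 ≠ c := by
          rintro ⟨x, hx | rfl | rfl⟩ h
          · exact hx ⟨_, h.symm⟩
          · exact hA _ h
          · exact hB _ h
        have hA' : ∀ (x : S') l, x.1 = A l → l = i := by
          rintro ⟨x, hx | rfl | rfl⟩ l h
          · exact absurd ⟨_, h.symm⟩ hx
          · exact (hAi _ _ h).symm
          · exact absurd h.symm (hAB _ _)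
        have hB' : ∀ (x : S') l, x.1 = B l → l = i' := by
          rintro ⟨x, hx | rfl | rfl⟩ l h
          · exact absurd ⟨_, h.symm⟩ hx
          · exact absurd h (hAB _ _)
          · exact (hBi _ _ h).symm
        obtain ⟨f', ρ', hf', hsf', hgen, hres⟩ := ρ.restrict (Subtype.val : S' → S) ns.1 hss (by
          rw [hφs]
          apply Rl.ext'
          intro x y
          constructor
          · rintro (⟨h, -⟩ | ⟨⟨l, l'⟩, he', h1, h2⟩)
            · exact Subtype.ext h
            · rw [hA' x l h1, hB' y l' h2] at he'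
              exact absurd he' he
          · intro h
            have h' : x = y := h
            exact Or.inl ⟨by rw [h'], hc' x⟩)
        obtain ⟨r1, r2⟩ := hres s' n1 hss'
        have hcard : 2 + 31 * k ≤ Fintype.card S' := by
          rw [Fintype.card_subtype]
          have hsub : (Finset.univ \ Finset.univ.map j) ∪ {A i, B i'} ⊆
              Finset.univ.filter (fun x => x ∉ Set.range j ∨ x = A i ∨ x = B i') := by
            intro x hx
            simp only [Finset.mem_union, Finset.mem_sdiff, Finset.mem_univ, true_and,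
              Finset.mem_map, Finset.mem_insert, Finset.mem_singleton, Finset.mem_filter,
              Set.mem_range] at hx ⊢
            exact hx
          have h1 := Finset.card_le_card hsub
          rw [Finset.card_union_of_disjoint (by
            rw [Finset.disjoint_right]
            intro x hx
            simp only [Finset.mem_insert, Finset.mem_singleton] at hx
            rcases hx with rfl | rfl <;> simp [A, B]),
            Finset.card_univ_sdiff, Finset.card_map, Finset.card_pair (hAB i i')] at h1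
          simp only [Finset.card_univ, Fintype.card_sum, Fintype.card_fin,
            Fintype.card_unique] at h1
          omega
        have hlow := ih S' ρ' f' (f' * s' * f') ⟨A i, Or.inr (Or.inl rfl)⟩
          ⟨B i', Or.inr (Or.inr rfl)⟩ hcard hgen r1 (Under.sand hgen.idem _)
          (fun h => hAB i i' (congrArg Subtype.val h)) (by
            rw [r2, n3]
            apply Rl.ext'
            intro x y
            constructor
            · rintro (⟨h, -⟩ | ⟨⟨l, l'⟩, he', h1, h2⟩)
              · exact Or.inl (Subtype.ext h)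
              · have e1 := hA' x l h1
                have e2 := hB' y l' h2
                subst e1 e2
                exact Or.inr ⟨Subtype.ext h1, Subtype.ext h2⟩
            · rintro (h | ⟨rfl, rfl⟩)
              · exact Or.inl ⟨by rw [h], hc' x⟩
              · exact Or.inr ⟨(i, i'), Finset.mem_insert_self _ _, rfl, rfl⟩)
        have hctx := del_ctx (ρ.lat _ ns.1) hss (ρ.lat _ hf') hgen.idem hsf' hss'
        rw [Finset.card_insert_of_notMem he]
        nlinarith
    obtain ⟨s, -, -, -, hfin⟩ := chain Finset.univ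
    have hpot := pot_le htf hff hZ
    simp only [Finset.card_univ, Fintype.card_prod, Fintype.card_fin] at hfin
    rw [pow_succ]
    omega

theorem Rep.bound [Finite P] {S : Type} [Fintype S] (ρ : Rep P S) (k : ℕ)
    (hk : 2 + 31 * k ≤ Fintype.card S) : 2 ^ k ≤ Nat.card P := by
  obtain ⟨x0, hx0, hφ0⟩ := ρ.surj 1
  obtain ⟨n, n1, n2, n3⟩ := ρ.exists_idem hx0 (by rw [hφ0]; simp)
  obtain ⟨t, ht, htt, -, hφ, hmin⟩ := ρ.exists_min n1 (Under.self n2) (by rw [n3, hφ0]; simp)
  rw [n3, hφ0] at hφ hmin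
  have hg : ρ.Gen t := ⟨ht, htt, hφ, hmin⟩
  obtain ⟨a, b, hab⟩ := Fintype.exists_pair_of_one_lt_card (α := S) (by omega)
  obtain ⟨x, hx, hφx⟩ := ρ.surj (edge a b)
  obtain ⟨m1, m2⟩ := ρ.mul3 ht hx ht
  rw [hφ, one_mul, mul_one, hφx] at m2
  exact (main_bound k S ρ t _ a b hk hg m1 (Under.sand htt _) hab m2).trans (del_le_card _ _)

end Crest.Agent.R294
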