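import Crest.Agent.R294.Chain

/-!
Representations of the monoid of binary relations by two-way behaviours: restriction to a local
monoid, generic idempotents and lifting of permutations to units.
-/

set_option autoImplicit false
universe u

namespace Crest.Agent.R294

/-- A semigroup of behaviours mapping onto the binary relations on `S`. -/
structure Rep (P : Type u) (S : Type) where
  N : Set (Rl (Set P))
  φ : Rl (Set P) → Rl S
  lat : ∀ x ∈ N, Lat x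
  mul_mem : ∀ x ∈ N, ∀ y ∈ N, x * y ∈ N
  map_mul : ∀ x ∈ N, ∀ y ∈ N, φ (x * y) = φ x * φ y
  surj : ∀ X, ∃ x ∈ N, φ x = X
  base : ∀ t ∈ N, ∀ x ∈ N, t * t = t → Under t x → (∀ A D, x A D → t A D) →
    ∀ a b, φ x a b → φ t a b

variable {P : Type u} {S : Type}

namespace Rep
variable (ρ : Rep P S)

theorem pow_mem {x : Rl (Set P)} (hx : x ∈ ρ.N) (n : ℕ) :
    x ^ (n + 1) ∈ ρ.N ∧ ρ.φ (x ^ (n + 1)) = ρ.φ x ^ (n + 1) := by
  induction n with
  | zero => simpa using hx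
  | succ n ih =>
    rw [pow_succ x (n + 1), pow_succ (ρ.φ x) (n + 1)]
    exact ⟨ρ.mul_mem _ ih.1 _ hx, by rw [ρ.map_mul _ ih.1 _ hx, ih.2]⟩

theorem mul3 {x y z : Rl (Set P)} (hx : x ∈ ρ.N) (hy : y ∈ ρ.N) (hz : z ∈ ρ.N) :
    x * y * z ∈ ρ.N ∧ ρ.φ (x * y * z) = ρ.φ x * ρ.φ y * ρ.φ z :=
  ⟨ρ.mul_mem _ (ρ.mul_mem _ hx _ hy) _ hz, by
    rw [ρ.map_mul _ (ρ.mul_mem _ hx _ hy) _ hz, ρ.map_mul _ hx _ hy]⟩

theorem under {t x : Rl (Set P)} (ht : t ∈ ρ.N) (hx : x ∈ ρ.N) (h : Under t x) :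
    Under (ρ.φ t) (ρ.φ x) :=
  ⟨by rw [← ρ.map_mul _ ht _ hx, h.l], by rw [← ρ.map_mul _ hx _ ht, h.r]⟩

/-- A minimal idempotent over the identity. -/
structure Gen (t : Rl (Set P)) : Prop where
  mem : t ∈ ρ.N
  idem : t * t = t
  map : ρ.φ t = 1
  min : ∀ e ∈ ρ.N, e * e = e → Under t e → ρ.φ e = 1 → e = t

end Rep

theorem idem_pow_succ {M : Type*} [Monoid M] {X : M} (h : X * X = X) (n : ℕ) : X ^ (n + 1) = X := by
  induction n with
  | zero => simp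
  | succ n ih => rw [pow_succ, ih, h]

theorem Rep.exists_idem [Finite P] (ρ : Rep P S) {x : Rl (Set P)} (hx : x ∈ ρ.N)
    (h : ρ.φ x * ρ.φ x = ρ.φ x) :
    ∃ n, x ^ (n + 1) ∈ ρ.N ∧ x ^ (n + 1) * x ^ (n + 1) = x ^ (n + 1) ∧ ρ.φ (x ^ (n + 1)) = ρ.φ x := by
  obtain ⟨n, hn, h1⟩ := exists_idem_pow x
  obtain ⟨m, rfl⟩ : ∃ m, n = m + 1 := ⟨n - 1, by omega⟩
  exact ⟨m, (ρ.pow_mem hx m).1, h1, by rw [(ρ.pow_mem hx m).2, idem_pow_succ h]⟩

theorem Rep.exists_min [Finite P] (ρ : Rep P S) {t : Rl (Set P)} {x : Rl (Set P)} (hx : x ∈ ρ.N)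
    (hu : Under t x) (h : ρ.φ x * ρ.φ x = ρ.φ x) :
    ∃ f ∈ ρ.N, f * f = f ∧ Under t f ∧ ρ.φ f = ρ.φ x ∧
      ∀ e ∈ ρ.N, e * e = e → Under f e → ρ.φ e = ρ.φ x → e = f := by
  let I := {e | e ∈ ρ.N ∧ e * e = e ∧ Under t e ∧ ρ.φ e = ρ.φ x}
  have hne : I.Nonempty := by
    obtain ⟨n, h1, h2, h3⟩ := ρ.exists_idem hx h
    exact ⟨_, h1, h2, hu.pow n, h3⟩
  obtain ⟨f, hf, hmin⟩ := Set.exists_min_image I (fun e => {y | Under e y}.ncard)
    (Set.toFinite _) hne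
  refine ⟨f, hf.1, hf.2.1, hf.2.2.1, hf.2.2.2, fun e he h1 h2 h3 => ?_⟩
  have hsub : {y | Under e y} ⊆ {y | Under f y} := fun y hy => h2.trans hy
  have := Set.eq_of_subset_of_ncard_le hsub (hmin e ⟨he, h1, hf.2.2.1.trans h2, h3⟩)
    (Set.toFinite _)
  have hfe : f ∈ {y | Under e y} := by rw [this]; exact Under.self hf.2.1
  rw [← h2.r]
  exact hfe.l

section restrict
variable {S' : Type} (ι : S' → S)

/-- Restriction of a relation along `ι`. -/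
def cm (X : Rl S) : Rl S' := fun s s' => X (ι s) (ι s')

/-- The identity on the range of `ι`. -/
def idR : Rl S := fun a b => a = b ∧ a ∈ Set.range ι

/-- Extension of a relation along `ι`. -/
def lft (Z : Rl S') : Rl S := fun a b => ∃ s s', a = ι s ∧ b = ι s' ∧ Z s s'

theorem cm_mul (X Y : Rl S) : cm ι (X * idR ι * Y) = cm ι X * cm ι Y := by
  apply Rl.ext'
  intro s s'
  constructor
  · rintro ⟨b, ⟨a, h1, rfl, r, rfl⟩, h2⟩
    exact ⟨r, h1, h2⟩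
  · rintro ⟨r, h1, h2⟩
    exact ⟨ι r, ⟨ι r, h1, rfl, r, rfl⟩, h2⟩

theorem sand_eq (X : Rl S) : idR ι * X * idR ι = lft ι (cm ι X) := by
  apply Rl.ext'
  intro a b
  constructor
  · rintro ⟨b', ⟨a', ⟨rfl, s, rfl⟩, h⟩, rfl, s', rfl⟩
    exact ⟨s, s', rfl, rfl, h⟩
  · rintro ⟨s, s', rfl, rfl, h⟩
    exact ⟨_, ⟨_, ⟨rfl, s, rfl⟩, h⟩, rfl, s', rfl⟩

theorem lft_one : lft ι 1 = idR ι := by
  apply Rl.ext'
  intro a b
  constructor
  · rintro ⟨s, s', rfl, rfl, h⟩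
    have h' : s = s' := h
    exact ⟨by rw [h'], s, rfl⟩
  · rintro ⟨rfl, s, rfl⟩
    exact ⟨s, s, rfl, rfl, rfl⟩

theorem cm_lft (hι : Function.Injective ι) (Z : Rl S') : cm ι (lft ι Z) = Z := by
  apply Rl.ext'
  intro s s'
  constructor
  · rintro ⟨r, r', h1, h2, h⟩
    rwa [hι h1, hι h2]
  · intro h
    exact ⟨s, s', rfl, rfl, h⟩

theorem Rep.restrict [Finite P] (ρ : Rep P S) {t : Rl (Set P)} (ht : t ∈ ρ.N) (hi : t * t = t)
    (hι : cm ι (ρ.φ t) = 1) :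
    ∃ (f : Rl (Set P)) (ρ' : Rep P S'), f ∈ ρ.N ∧ Under t f ∧ ρ'.Gen f ∧
      (∀ x ∈ ρ.N, Under t x → f * x * f ∈ ρ'.N ∧ ρ'.φ (f * x * f) = cm ι (ρ.φ x)) := by
  have hinj : Function.Injective ι := by
    intro s s' h
    have h1 : cm ι (ρ.φ t) s s := by rw [hι]; rfl
    have h2 : cm ι (ρ.φ t) s s' := by unfold cm at h1 ⊢; rwa [← h]
    rw [hι] at h2
    exact h2
  set T := ρ.φ t with hT
  set E := idR ι with hE
  have hTT : T * T = T := by rw [hT, ← ρ.map_mul _ ht _ ht, hi]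
  have hETE : E * T * E = E := by rw [hE, sand_eq, hι, lft_one]
  have hcm : ∀ X, cm ι (E * X * E) = cm ι X := fun X => by rw [hE, sand_eq, cm_lft ι hinj]
  obtain ⟨x0, hx0, hφ0⟩ := ρ.surj E
  obtain ⟨m1, m2⟩ := ρ.mul3 ht hx0 ht
  rw [hφ0, ← hT] at m2
  have hFF : T * E * T * (T * E * T) = T * E * T := by
    calc T * E * T * (T * E * T) = T * (E * (T * T) * E) * T := by simp only [mul_assoc]
      _ = T * E * T := by rw [hTT, hETE]
  obtain ⟨f, hf, hff, hu, hφ, hmin⟩ := ρ.exists_min m1 (Under.sand hi x0) (by rw [m2, hFF])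
  rw [m2] at hφ hmin
  have key : ∀ X, Under T X → cm ι (T * E * T * X * (T * E * T)) = cm ι X := by
    intro X hX
    rw [← hcm, ← hcm X]
    congr 1
    calc E * (T * E * T * X * (T * E * T)) * E
        = (E * T * E) * (T * X * T) * (E * T * E) := by simp only [mul_assoc]
      _ = E * X * E := by rw [hETE, hX.l, hX.r]
  let ρ' : Rep P S' :=
    { N := {x | x ∈ ρ.N ∧ Under f x}
      φ := fun x => cm ι (ρ.φ x)
      lat := fun x hx => ρ.lat x hx.1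
      mul_mem := fun x hx y hy => ⟨ρ.mul_mem _ hx.1 _ hy.1, hx.2.mul hy.2⟩
      map_mul := by
        intro x hx y hy
        have h1 := ρ.under hf hx.1 hx.2
        have h2 := ρ.under ht hx.1 (hu.trans hx.2)
        have h3 := ρ.under ht hy.1 (hu.trans hy.2)
        rw [hφ] at h1
        rw [ρ.map_mul _ hx.1 _ hy.1, ← cm_mul]
        congr 1
        calc ρ.φ x * ρ.φ y = ρ.φ x * (T * E * T) * ρ.φ y := by rw [h1.r]
          _ = (ρ.φ x * T) * E * (T * ρ.φ y) := by simp only [mul_assoc]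
          _ = _ := by rw [h2.r, h3.l]
      surj := by
        intro Z
        obtain ⟨x1, hx1, hφ1⟩ := ρ.surj (lft ι Z)
        obtain ⟨k1, k2⟩ := ρ.mul3 ht hx1 ht
        obtain ⟨k3, k4⟩ := ρ.mul3 hf k1 hf
        refine ⟨_, ⟨k3, Under.sand hff _⟩, ?_⟩
        rw [k4, hφ, key _ (ρ.under ht k1 (Under.sand hi _)), k2, hφ1, ← hT]
        have : lft ι Z = E * lft ι Z * E := by rw [hE, sand_eq, cm_lft ι hinj]
        rw [← hcm]
        conv_lhs => rw [this]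
        calc cm ι (E * (T * (E * lft ι Z * E) * T) * E)
            = cm ι ((E * T * E) * lft ι Z * (E * T * E)) := by simp only [mul_assoc]
          _ = Z := by rw [hETE, hcm, cm_lft ι hinj]
      base := fun t' ht' x hx h1 h2 h3 a b hab => ρ.base t' ht'.1 x hx.1 h1 h2 h3 _ _ hab }
  refine ⟨f, ρ', hf, hu, ⟨⟨hf, Under.self hff⟩, hff, ?_, ?_⟩, ?_⟩
  · show cm ι (ρ.φ f) = 1
    rw [hφ, ← hcm]
    calc cm ι (E * (T * E * T) * E) = cm ι ((E * T * E) * T * E) := by simp only [mul_assoc]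
      _ = 1 := by rw [hETE, hETE, hE, ← lft_one, cm_lft ι hinj]
  · intro e he h1 h2 h3
    apply hmin e he.1 h1 h2
    have h3' : cm ι (ρ.φ e) = 1 := h3
    have g1 := ρ.under hf he.1 h2
    have g2 := ρ.under ht he.1 (hu.trans h2)
    rw [hφ] at g1
    have g3 : E * ρ.φ e * E = E := by rw [hE, sand_eq, h3', lft_one]
    calc ρ.φ e = (T * E * T) * ρ.φ e * (T * E * T) := by rw [g1.l, g1.r]
      _ = T * (E * (T * ρ.φ e * T) * E) * T := by simp only [mul_assoc]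
      _ = T * E * T := by rw [g2.l, g2.r, g3]
  · intro x hx hux
    obtain ⟨k3, k4⟩ := ρ.mul3 hf hx hf
    refine ⟨⟨k3, Under.sand hff _⟩, ?_⟩
    show cm ι (ρ.φ (f * x * f)) = _
    rw [k4, hφ, key _ (ρ.under ht hx hux)]

end restrict

/-- The graph of a permutation. -/
def gr (σ : Equiv.Perm S) : Rl S := fun a b => σ a = b

theorem gr_mul_inv (σ : Equiv.Perm S) : gr σ * gr σ.symm = 1 := by
  apply Rl.ext'
  intro a b
  constructor
  · rintro ⟨c, h1, h2⟩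
    unfold gr at h1 h2
    rw [← h1] at h2
    simpa [Rl.one_apply] using h2
  · intro h
    have h' : a = b := h
    exact ⟨σ a, rfl, by simp [gr, h']⟩

/-- The identity with one extra edge. -/
def edge (a b : S) : Rl S := fun x y => x = y ∨ (x = a ∧ y = b)

theorem gr_conj (σ : Equiv.Perm S) (a b : S) :
    gr σ.symm * edge a b * gr σ = edge (σ a) (σ b) := by
  apply Rl.ext'
  intro x y
  constructor
  · rintro ⟨c, ⟨d, h1, h2⟩, h3⟩
    unfold gr at h1 h3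
    subst h1 h3
    rcases h2 with h2 | ⟨h2, h4⟩
    · left; rw [← h2]; simp
    · right; rw [← h2, h4]; simp
  · rintro (h | ⟨h1, h2⟩)
    · exact ⟨σ.symm x, ⟨σ.symm x, rfl, Or.inl rfl⟩, by simp [gr, h]⟩
    · exact ⟨b, ⟨a, by simp [gr, h1], Or.inr ⟨rfl, rfl⟩⟩, by simp [gr, h2]⟩

theorem exists_perm_two {a b a' b' : S} (h : a ≠ b) (h' : a' ≠ b') :
    ∃ σ : Equiv.Perm S, σ a = a' ∧ σ b = b' := by
  classical
  have h1 : Equiv.swap a a' b ≠ a' := by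
    intro hh
    have := congrArg (Equiv.swap a a') hh
    simp at this
    exact h this.symm
  refine ⟨(Equiv.swap a a').trans (Equiv.swap (Equiv.swap a a' b) b'), ?_, by simp⟩
  simp only [Equiv.trans_apply, Equiv.swap_apply_left]
  exact Equiv.swap_apply_of_ne_of_ne h1.symm h'

theorem Rep.exists_conj [Finite P] (ρ : Rep P S) {t : Rl (Set P)} (ht : ρ.Gen t)
    {u : Rl (Set P)} (hu : u ∈ ρ.N) (htu : Under t u) {a b : S} (hab : a ≠ b)
    (hφ : ρ.φ u = edge a b) {a' b' : S} (hab' : a' ≠ b') :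
    ∃ u' ∈ ρ.N, Under t u' ∧ ρ.φ u' = edge a' b' ∧ del t u' ≤ del t u := by
  obtain ⟨σ, rfl, rfl⟩ := exists_perm_two hab hab'
  obtain ⟨x0, hx0, hφ0⟩ := ρ.surj (gr σ)
  obtain ⟨m1, m2⟩ := ρ.mul3 ht.mem hx0 ht.mem
  rw [ht.map, one_mul, mul_one, hφ0] at m2
  set g := t * x0 * t
  have hg : Under t g := Under.sand ht.idem _
  obtain ⟨n, hn, h1⟩ := exists_idem_pow g
  obtain ⟨m, rfl⟩ : ∃ m, n = m + 1 := ⟨n - 1, by omega⟩
  have hunit : IsUnit (gr σ) :=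
    ⟨⟨gr σ, gr σ.symm, gr_mul_inv σ, by simpa using gr_mul_inv σ.symm⟩, rfl⟩
  obtain ⟨p1, p2⟩ := ρ.pow_mem m1 m
  have h2 : ρ.φ (g ^ (m + 1)) = 1 := by
    have h3 : ρ.φ (g ^ (m + 1)) * ρ.φ (g ^ (m + 1)) = ρ.φ (g ^ (m + 1)) * 1 := by
      rw [← ρ.map_mul _ p1 _ p1, h1, mul_one]
    have h4 : IsUnit (ρ.φ (g ^ (m + 1))) := by rw [p2, m2]; exact hunit.pow _
    exact h4.mul_left_cancel h3
  have h3 : g ^ (m + 1) = t := ht.min _ p1 h1 (hg.pow m) h2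
  obtain ⟨q1, -⟩ := ρ.pow_mem m1 (2 * m)
  have h4 : g * g ^ (2 * m + 1) = t := by
    rw [← pow_succ', show 2 * m + 1 + 1 = (m + 1) + (m + 1) by ring, pow_add, h1, h3]
  have h5 : g ^ (2 * m + 1) * g = t := by
    rw [← pow_succ, show 2 * m + 1 + 1 = (m + 1) + (m + 1) by ring, pow_add, h1, h3]
  have h6 : ρ.φ (g ^ (2 * m + 1)) = gr σ.symm := by
    apply hunit.mul_left_cancel
    rw [gr_mul_inv, ← m2, ← ρ.map_mul _ m1 _ q1, h4, ht.map]
  obtain ⟨r1, r2⟩ := ρ.mul3 q1 hu m1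
  refine ⟨_, r1, ((hg.pow _).mul htu).mul hg, by rw [r2, h6, hφ, m2, gr_conj], ?_⟩
  exact del_conj (ρ.lat _ ht.mem) ht.idem (ρ.lat _ m1) (ρ.lat _ q1) hg (hg.pow _) h4 h5 htu

end Crest.Agent.R294
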