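import Crest.Agent.R294.Det

/-!
The one-way nondeterministic automaton for the liveness language.
-/

set_option autoImplicit false

namespace Crest.Agent.R294
open Crest.TwoWay

/-- Guess a point at the left endmarker and follow the relations. -/
def liveNFA (h m : ℕ) (hm : h + 2 ≤ m) : TwoWayNFA (Fin h → Fin h → Bool) (Fin m) where
  start := ⟨h, by omega⟩
  accept := {q | q.val = h + 1}
  step := fun q c => match c with
    | Cell.leftEnd => {p | p.2 = HeadMove.moveRight ∧ p.1.val < h}
    | Cell.letter R => {p | p.2 = HeadMove.moveRight ∧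
        ∃ a b : Fin h, a.val = q.val ∧ b.val = p.1.val ∧ R a b = true}
    | Cell.rightEnd => {p | p.2 = HeadMove.stay ∧ p.1.val = h + 1 ∧ q.val < h}

theorem liveNFA_noLeft (h m : ℕ) (hm : h + 2 ≤ m) : (liveNFA h m hm).NoLeftMoves := by
  intro q a p hp
  cases a with
  | leftEnd => rw [hp.1]; simp
  | letter R => rw [hp.1]; simp
  | rightEnd => rw [hp.1]; simp

theorem scan_succ_lt {α : Type} (w : List α) (i : ℕ) (hi : i < w.length) :
    scan w (i + 1) = Cell.letter w[i] := by
  simp [scan, List.getElem?_eq_getElem hi]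

theorem scan_succ_ge {α : Type} (w : List α) (i : ℕ) (hi : w.length ≤ i) :
    scan w (i + 1) = Cell.rightEnd := by
  simp [scan, List.getElem?_eq_none hi]

theorem wordRel_take_succ {h : ℕ} (w : List (Fin h → Fin h → Bool)) (i : ℕ) (hi : i < w.length)
    (a c : Fin h) :
    wordRel (w.take (i + 1)) a c ↔ ∃ b, wordRel (w.take i) a b ∧ w[i] b c = true := by
  rw [List.take_succ_eq_append_getElem hi, wordRel_append]
  simp [wordRel]

theorem liveNFA_language (h m : ℕ) (hm : h + 2 ≤ m) :
    (liveNFA h m hm).language = liveness h := by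
  ext w
  constructor
  · rintro ⟨c, hc, hacc⟩
    have key : ∀ c, Relation.ReflTransGen ((liveNFA h m hm).Step w) ((liveNFA h m hm).start, 0) c →
        (c.1.val = h ∧ c.2 = 0) ∨
        (∃ (i : ℕ) (a b : Fin h), c.2 = i + 1 ∧ i ≤ w.length ∧ b.val = c.1.val ∧
          wordRel (w.take i) a b) ∨ w ∈ liveness h := by
      intro c hc
      induction hc with
      | refl => exact Or.inl ⟨rfl, rfl⟩
      | @tail b c _ hstep ih =>
        obtain ⟨mv, hmv, hpos⟩ := hstep
        rcases ih with ⟨h1, h2⟩ | ⟨i, x, y, h1, h2, h3, h4⟩ | h1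
        · rw [h2] at hmv hpos
          obtain ⟨g1, g2⟩ : mv = HeadMove.moveRight ∧ c.1.val < h := hmv
          subst g1
          simp [movePos] at hpos
          exact Or.inr (Or.inl ⟨0, ⟨_, g2⟩, ⟨_, g2⟩, by omega, by omega, rfl, rfl⟩)
        · rcases h2.eq_or_lt with rfl | h2
          · exact Or.inr (Or.inr ⟨x, y, by simpa using h4⟩)
          · rw [h1, scan_succ_lt w i h2] at hmv
            obtain ⟨g1, a, b', g2, g3, g4⟩ := hmv
            simp only at g1 g3
            subst g1
            rw [h1] at hpos
            simp only [movePos] at hpos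
            rw [if_neg (by omega), Option.some.injEq] at hpos
            refine Or.inr (Or.inl ⟨i + 1, x, b', hpos.symm, h2, g3, ?_⟩)
            rw [wordRel_take_succ w i h2]
            have : y = a := Fin.ext (by omega)
            exact ⟨y, h4, by rw [this]; exact g4⟩
        · exact Or.inr (Or.inr h1)
    have hacc' : c.1.val = h + 1 := hacc
    rcases key c hc with ⟨h1, -⟩ | ⟨i, a, b, -, -, h3, -⟩ | h1
    · omega
    · have := b.2; omega
    · exact h1
  · rintro ⟨a, b, hab⟩
    have key : ∀ i, i ≤ w.length → ∀ b : Fin h, wordRel (w.take i) a b →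
        Relation.ReflTransGen ((liveNFA h m hm).Step w) ((liveNFA h m hm).start, 0)
          (⟨b.val, by have := b.2; omega⟩, i + 1) := by
      intro i
      induction i with
      | zero =>
        intro _ b _
        exact Relation.ReflTransGen.single ⟨HeadMove.moveRight, ⟨rfl, b.2⟩, by simp [movePos]⟩
      | succ i ih =>
        intro hi c hc
        rw [wordRel_take_succ w i hi] at hc
        obtain ⟨b, h1, h2⟩ := hc
        refine (ih (by omega) b h1).tail ⟨HeadMove.moveRight, ?_, ?_⟩
        · show _ ∈ (liveNFA h m hm).step _ (scan w (i + 1))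
          rw [scan_succ_lt w i hi]
          exact ⟨rfl, b, c, rfl, rfl, h2⟩
        · simp only [movePos]
          rw [if_neg (by omega)]
    refine ⟨(⟨h + 1, by omega⟩, w.length + 1), (key _ le_rfl b (by simpa using hab)).tail
      ⟨HeadMove.stay, ?_, rfl⟩, rfl⟩
    show _ ∈ (liveNFA h m hm).step _ (scan w (w.length + 1))
    rw [scan_succ_ge w _ le_rfl]
    exact ⟨rfl, rfl, b.2⟩

end Crest.Agent.R294
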